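import Vale.Agent.P224.S7.ZeroF
import Vale.Agent.P224.S7.RegX
import Vale.Agent.P224.SP.LogB

/-!
The certificate with a parameter in dimension 7 at the parameter zero: data.
-/

namespace Vale.Agent.P224.S7

open Vale.Agent.P224.UE Vale.Agent.P224.POS Vale.Agent.P224.PO Vale.Agent.P224.SO Set
open scoped RealInnerProductSpace

noncomputable section

/-- the values at zero of the free value functions, times the denominator -/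
def F0 : List (VK × ℤ) := [
  (⟨4, 0, 0, 0, 0⟩, 8792437912000),
  (⟨4, 0, 0, 0, 1⟩, -17584875824000),
  (⟨4, 0, 0, 0, 2⟩, 8792437912000),
  (⟨4, 0, 1, 0, 0⟩, -17389950589872),
  (⟨4, 0, 1, 0, 1⟩, 52364777003744),
  (⟨4, 0, 1, 0, 2⟩, -34974826413872),
  (⟨4, 0, 1, 1, 0⟩, -30578607457872),
  (⟨4, 0, 1, 1, 1⟩, 34974826413872),
  (⟨4, 0, 2, 0, 0⟩, -30578607457872),
  (⟨4, 0, 2, 0, 1⟩, 34974826413872),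
  (⟨4, 0, 2, 1, 0⟩, -26231119810404),
  (⟨4, 0, 3, 0, 0⟩, -8743706603468),
  (⟨4, 1, 0, 0, 0⟩, -17579810553600),
  (⟨4, 1, 0, 0, 1⟩, 17574745283200),
  (⟨4, 1, 0, 0, 2⟩, 5065270400),
  (⟨4, 1, 1, 0, 0⟩, 52374907544544),
  (⟨4, 1, 1, 0, 1⟩, -69959783368544),
  (⟨4, 1, 1, 0, 2⟩, 0),
  (⟨4, 1, 1, 1, 0⟩, 34977359049072),
  (⟨4, 1, 1, 1, 1⟩, 0),
  (⟨4, 1, 2, 0, 0⟩, 34977359049072),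
  (⟨4, 1, 2, 0, 1⟩, 0),
  (⟨4, 1, 2, 1, 0⟩, 0),
  (⟨4, 1, 3, 0, 0⟩, 0),
  (⟨4, 2, 0, 0, 0⟩, 8782307371200),
  (⟨4, 2, 0, 0, 1⟩, 10130540800),
  (⟨4, 2, 0, 0, 2⟩, 0),
  (⟨4, 2, 1, 0, 0⟩, -34984956954672),
  (⟨4, 2, 1, 0, 1⟩, 0),
  (⟨4, 2, 1, 0, 2⟩, 0),
  (⟨4, 2, 1, 1, 0⟩, 0),
  (⟨4, 2, 1, 1, 1⟩, 0),
  (⟨4, 2, 2, 0, 0⟩, 0),
  (⟨4, 2, 2, 0, 1⟩, 0),
  (⟨4, 2, 2, 1, 0⟩, 0),
  (⟨4, 2, 3, 0, 0⟩, 0),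
  (⟨4, 3, 0, 0, 0⟩, 5065270400),
  (⟨4, 3, 0, 0, 1⟩, 0),
  (⟨4, 3, 0, 0, 2⟩, 0),
  (⟨4, 3, 1, 0, 0⟩, 0),
  (⟨4, 3, 1, 0, 1⟩, 0),
  (⟨4, 3, 1, 0, 2⟩, 0),
  (⟨4, 3, 1, 1, 0⟩, 0),
  (⟨4, 3, 1, 1, 1⟩, 0),
  (⟨4, 3, 2, 0, 0⟩, 0),
  (⟨4, 3, 2, 0, 1⟩, 0),
  (⟨4, 3, 2, 1, 0⟩, 0),
  (⟨4, 3, 3, 0, 0⟩, 0),
  (⟨4, 4, 0, 0, 0⟩, 0),
  (⟨4, 4, 0, 0, 1⟩, 0),
  (⟨4, 4, 1, 0, 0⟩, 0),
  (⟨4, 4, 1, 0, 1⟩, 0),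
  (⟨4, 4, 1, 1, 0⟩, 0),
  (⟨4, 4, 2, 0, 0⟩, 0),
  (⟨4, 5, 0, 0, 0⟩, 0),
  (⟨4, 5, 1, 0, 0⟩, 0),
  (⟨5, 0, 0, 0, 0⟩, -13965068362064),
  (⟨5, 0, 0, 0, 1⟩, 27930136724128),
  (⟨5, 0, 0, 0, 2⟩, -13965068362064),
  (⟨5, 0, 1, 0, 0⟩, 26361602941392),
  (⟨5, 0, 1, 0, 1⟩, -80653342606912),
  (⟨5, 0, 1, 0, 2⟩, 54291739665520),
  (⟨5, 0, 1, 1, 0⟩, -20344764012368),
  (⟨5, 0, 1, 1, 1⟩, -1521207316264),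
  (⟨5, 0, 1, 1, 2⟩, -21420010828064),
  (⟨5, 0, 2, 0, 0⟩, 72123153325216),
  (⟨5, 0, 2, 0, 1⟩, -21382228702520),
  (⟨5, 0, 2, 0, 2⟩, -21420010828064),
  (⟨5, 0, 2, 1, 0⟩, -185021860332684),
  (⟨5, 0, 2, 1, 1⟩, 65420211469256),
  (⟨5, 0, 2, 2, 0⟩, -16065008121048),
  (⟨5, 0, 3, 0, 0⟩, 153633556685948),
  (⟨5, 0, 3, 0, 1⟩, 20259831843000),
  (⟨5, 0, 3, 1, 0⟩, -21420010828064),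
  (⟨5, 0, 4, 0, 0⟩, -5355002707016),
  (⟨5, 1, 0, 0, 0⟩, 27930136724128),
  (⟨5, 1, 0, 0, 1⟩, -27930136724128),
  (⟨5, 1, 1, 0, 0⟩, -80653342606912),
  (⟨5, 1, 1, 0, 1⟩, 108583479331040),
  (⟨5, 1, 1, 1, 0⟩, -11330819118192),
  (⟨5, 1, 1, 1, 1⟩, -42840021656128),
  (⟨5, 1, 1, 1, 2⟩, 0),
  (⟨5, 1, 2, 0, 0⟩, -11572616900592),
  (⟨5, 1, 2, 0, 1⟩, -42840021656128),
  (⟨5, 1, 2, 0, 2⟩, 0),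
  (⟨5, 1, 2, 1, 0⟩, 64260032484192),
  (⟨5, 1, 2, 1, 1⟩, 0),
  (⟨5, 1, 2, 2, 0⟩, 0),
  (⟨5, 1, 3, 0, 0⟩, 21420010828064),
  (⟨5, 1, 3, 0, 1⟩, 0),
  (⟨5, 1, 3, 1, 0⟩, 0),
  (⟨5, 1, 4, 0, 0⟩, 0),
  (⟨5, 2, 0, 0, 0⟩, -13965068362064),
  (⟨5, 2, 1, 0, 0⟩, 54291739665520),
  (⟨5, 2, 1, 1, 0⟩, -21420010828064),
  (⟨5, 2, 1, 1, 1⟩, 0),
  (⟨5, 2, 1, 1, 2⟩, 0),
  (⟨5, 2, 2, 0, 0⟩, -21420010828064),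
  (⟨5, 2, 2, 0, 1⟩, 0),
  (⟨5, 2, 2, 0, 2⟩, 0),
  (⟨5, 2, 2, 1, 0⟩, 0),
  (⟨5, 2, 2, 1, 1⟩, 0),
  (⟨5, 2, 2, 2, 0⟩, 0),
  (⟨5, 2, 3, 0, 0⟩, 0),
  (⟨5, 2, 3, 0, 1⟩, 0),
  (⟨5, 2, 3, 1, 0⟩, 0),
  (⟨5, 2, 4, 0, 0⟩, 0),
  (⟨5, 3, 1, 1, 0⟩, 0),
  (⟨5, 3, 1, 1, 1⟩, 0),
  (⟨5, 3, 1, 1, 2⟩, 0),
  (⟨5, 3, 2, 0, 0⟩, 0),
  (⟨5, 3, 2, 0, 1⟩, 0),
  (⟨5, 3, 2, 0, 2⟩, 0),
  (⟨5, 3, 2, 1, 0⟩, 0),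
  (⟨5, 3, 2, 1, 1⟩, 0),
  (⟨5, 3, 2, 2, 0⟩, 0),
  (⟨5, 3, 3, 0, 0⟩, 0),
  (⟨5, 3, 3, 0, 1⟩, 0),
  (⟨5, 3, 3, 1, 0⟩, 0),
  (⟨5, 3, 4, 0, 0⟩, 0),
  (⟨5, 4, 1, 1, 0⟩, 0),
  (⟨5, 4, 1, 1, 1⟩, 0),
  (⟨5, 4, 2, 0, 0⟩, 0),
  (⟨5, 4, 2, 0, 1⟩, 0),
  (⟨5, 4, 2, 1, 0⟩, 0),
  (⟨5, 4, 3, 0, 0⟩, 0),
  (⟨5, 5, 1, 1, 0⟩, 0),
  (⟨5, 5, 2, 0, 0⟩, 0),
  (⟨6, 0, 0, 0, 0⟩, 6390946490656),
  (⟨6, 0, 0, 0, 1⟩, -12781892981312),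
  (⟨6, 0, 0, 0, 2⟩, 6390946490656),
  (⟨6, 0, 1, 0, 0⟩, -10680768446976),
  (⟨6, 0, 1, 0, 1⟩, 34143429875264),
  (⟨6, 0, 1, 0, 2⟩, -23462661428288),
  (⟨6, 0, 1, 1, 0⟩, 63425907053248),
  (⟨6, 0, 1, 1, 1⟩, -62128638835856),
  (⟨6, 0, 1, 1, 2⟩, 28014811825408),
  (⟨6, 0, 2, 0, 0⟩, -47930659768352),
  (⟨6, 0, 2, 0, 1⟩, -3005285609200),
  (⟨6, 0, 2, 0, 2⟩, 28014811825408),
  (⟨6, 0, 2, 1, 0⟩, 281649232086820),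
  (⟨6, 0, 2, 1, 1⟩, -85890332027192),
  (⟨6, 0, 2, 2, 0⟩, -31455155086236),
  (⟨6, 0, 2, 2, 1⟩, 3315340276068),
  (⟨6, 0, 3, 0, 0⟩, -193052646213476),
  (⟨6, 0, 3, 0, 1⟩, -26168915274440),
  (⟨6, 0, 3, 1, 0⟩, 28014811825408),
  (⟨6, 0, 4, 0, 0⟩, 59469966911644),
  (⟨6, 0, 4, 0, 1⟩, -3315340276068),
  (⟨6, 1, 0, 0, 0⟩, -12781892981312),
  (⟨6, 1, 0, 0, 1⟩, 12781892981312),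
  (⟨6, 1, 1, 0, 0⟩, 34143429875264),
  (⟨6, 1, 1, 0, 1⟩, -46925322856576),
  (⟨6, 1, 1, 1, 0⟩, -32566962222528),
  (⟨6, 1, 1, 1, 1⟩, 56029623650816),
  (⟨6, 1, 2, 0, 0⟩, -32566962222528),
  (⟨6, 1, 2, 0, 1⟩, 56029623650816),
  (⟨6, 1, 2, 1, 0⟩, -84044435476224),
  (⟨6, 1, 2, 2, 0⟩, 0),
  (⟨6, 1, 2, 2, 1⟩, 0),
  (⟨6, 1, 3, 0, 0⟩, -28014811825408),
  (⟨6, 1, 4, 0, 0⟩, 0),
  (⟨6, 1, 4, 0, 1⟩, 0),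
  (⟨6, 2, 0, 0, 0⟩, 6390946490656),
  (⟨6, 2, 1, 0, 0⟩, -23462661428288),
  (⟨6, 2, 1, 1, 0⟩, 28014811825408),
  (⟨6, 2, 2, 0, 0⟩, 28014811825408),
  (⟨6, 2, 2, 2, 0⟩, 0),
  (⟨6, 2, 2, 2, 1⟩, 0),
  (⟨6, 2, 4, 0, 0⟩, 0),
  (⟨6, 2, 4, 0, 1⟩, 0),
  (⟨6, 3, 2, 2, 0⟩, 0),
  (⟨6, 3, 2, 2, 1⟩, 0),
  (⟨6, 3, 4, 0, 0⟩, 0),
  (⟨6, 3, 4, 0, 1⟩, 0),
  (⟨7, 0, 0, 0, 0⟩, -1222888431744),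
  (⟨7, 0, 0, 0, 1⟩, 2445776863488),
  (⟨7, 0, 0, 0, 2⟩, -1222888431744),
  (⟨7, 0, 1, 0, 0⟩, 1701836349952),
  (⟨7, 0, 1, 0, 1⟩, -5849449563392),
  (⟨7, 0, 1, 0, 2⟩, 4147613213440),
  (⟨7, 0, 1, 1, 0⟩, -12517907154104),
  (⟨7, 0, 1, 1, 1⟩, 28671289664648),
  (⟨7, 0, 1, 1, 2⟩, -6594800997344),
  (⟨7, 0, 2, 0, 0⟩, 6400643154552),
  (⟨7, 0, 2, 0, 1⟩, -10587312102152),
  (⟨7, 0, 2, 0, 2⟩, -6594800997344),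
  (⟨7, 0, 2, 1, 0⟩, -70495098894132),
  (⟨7, 0, 2, 1, 1⟩, 20470120557936),
  (⟨7, 0, 2, 2, 0⟩, 47520163207284),
  (⟨7, 0, 2, 2, 1⟩, -3315340276068),
  (⟨7, 0, 3, 0, 0⟩, 48263508118196),
  (⟨7, 0, 3, 0, 1⟩, 5909083431440),
  (⟨7, 0, 3, 1, 0⟩, -6594800997344),
  (⟨7, 0, 4, 0, 0⟩, -54114964204628),
  (⟨7, 0, 4, 0, 1⟩, 3315340276068),
  (⟨7, 1, 0, 0, 0⟩, 2445776863488),
  (⟨7, 1, 0, 0, 1⟩, -2445776863488),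
  (⟨7, 1, 1, 0, 0⟩, -5849449563392),
  (⟨7, 1, 1, 0, 1⟩, 8295226426880),
  (⟨7, 1, 1, 1, 0⟩, 9041988781248),
  (⟨7, 1, 1, 1, 1⟩, -13189601994688),
  (⟨7, 1, 2, 0, 0⟩, 9041988781248),
  (⟨7, 1, 2, 0, 1⟩, -13189601994688),
  (⟨7, 1, 2, 1, 0⟩, 19784402992032),
  (⟨7, 1, 3, 0, 0⟩, 6594800997344),
  (⟨7, 2, 0, 0, 0⟩, -1222888431744),
  (⟨7, 2, 1, 0, 0⟩, 4147613213440),
  (⟨7, 2, 1, 1, 0⟩, -6594800997344),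
  (⟨7, 2, 2, 0, 0⟩, -6594800997344)]

/-- the kernel identity for the free value functions at zero -/
theorem F0_id : chk [] ((PE.mul (.c 1) (fPE F0)).sub (zPE (-423793915520) 985758496 5298400))
    = true := by
  decide +kernel

lemma logl : Real.log (16 / 3) = (4) * Real.log 2 + (-1) * Real.log 3 := by
  rw [Real.log_div (by norm_num) (by norm_num)]
  have h16 : Real.log 16 = 4 * Real.log 2 := by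
    rw [show (16 : ℝ) = (2 : ℝ) ^ 4 by norm_num]
    simp only [Real.log_pow]
    norm_num
  have h3 : Real.log 3 = 1 * Real.log 3 := by
    rw [show (3 : ℝ) = (3 : ℝ) ^ 1 by norm_num]
    simp only [Real.log_pow]
    norm_num
  rw [h16, h3]
  ring

/-- the small number of the identity at zero -/
def XD : ℝ := (3 * Real.log (16 / 3) - 5)

lemma XD_bd : (54823251 / 2500000000) ≤ XD ∧ XD ≤ (21929301 / 1000000000) := by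
  have b2 := LG.bd2
  have b3 := LG.bd3
  unfold XD
  rw [logl]
  constructor <;> linarith [b2.1, b2.2, b3.1, b3.2]

/-- the coefficient of the cube -/
def kapD : ℝ := (28975625 / 6291456)

/-- the coefficient of `‖e‖ ^ 2` -/
def gamD : ℝ := (832 / 245) + (-768 / 245) * Real.log (16 / 3) + (1536 / 245) * KK + (478 / 60025) * kapD

/-- the coefficient of the resource -/
def rhoD : ℝ := (800 / 127) * (3 * Real.log (16 / 3) - 5)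

/-- **The inequality at the parameter zero**, with the data. -/
theorem h0_D {Vp Vf : List VE}
    (hp : (Vp.map fun x => (x.K, x.g 0)) = pivV ll KK)
    (hf : (Vf.map fun x => (x.K, x.g 0)) = F0.map fun y => (y.1, (y.2 : ℝ) / 34527510528))
    {E : Type*} [NormedAddCommGroup E] [InnerProductSpace ℝ E] (x N y w : E) :
    ((lG (Vp ++ Vf)).map fun t => t.φ 0 * t.Q (dv x N y w 0)).sum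
      ≤ √7 * (1 + gamD * dv x N y w (0 : E) 3
          - (rhoD * RF (-(147/40)) 34 (-((7 / 24) * √12)) (dv x N y w 0)
            + kapD * dv x N y w (0 : E) 0 ^ 3) + R00 (√12) ll kapD (dv x N y w 0)
          - ((7 / 50) * ((⟪x, w⟫ - ⟪N, y⟫) / 2) ^ 2
            + (49 / 5000) * (⟪N, w⟫ - ⟪x, y⟫ - √12 / 12 * ((⟪x, w⟫ + ⟪N, y⟫) / 2)) ^ 2)) :=
  h0_of (l := ll) (K := KK) (κ := kapD) (ℓu := (7 / 50)) (ℓv := (49 / 5000)) XD_bd.1 XD_bd.2 hp hf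
    (fun f hf5 =>
      hQ_of F0_id (D0 := 34527510528) (by norm_num) (by norm_num)
        (by unfold kapD; norm_num) (by norm_num) (by norm_num) f hf5) x N y w

end

end Vale.Agent.P224.S7
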