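import Vale.Agent.P224.H874.Consts

/-!
Constants for `m = 7`.
-/

namespace Vale.Agent.P224.S7

open Real Finset Vale.Agent.P224.SP

lemma artanh_aux {x : ℝ} (h0 : |x| < 1) (n : ℕ) :
    |(Real.log (1 + x) - Real.log (1 - x)) -
      (∑ i ∈ range n, x ^ (i + 1) / (i + 1) - ∑ i ∈ range n, (-x) ^ (i + 1) / (i + 1))| ≤
      2 * (|x| ^ (n + 1) / (1 - |x|)) := by
  have h1 := Real.abs_log_sub_add_sum_range_le h0 n
  have h2 := Real.abs_log_sub_add_sum_range_le (x := -x) (by rwa [abs_neg]) n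
  rw [abs_neg, sub_neg_eq_add] at h2
  rw [abs_le] at h1 h2 ⊢
  constructor <;> linarith [h1.1, h1.2, h2.1, h2.2]

lemma la_bd : |(10 : ℝ) ^ 21 * (4 * Real.log 2 - Real.log 3 - Real.log 5) -
    64538521137571171673| ≤ 1 := by
  have h := artanh_aux (x := 1 / 31) (by rw [abs_of_nonneg] <;> norm_num) 14
  have e : Real.log (1 + 1 / 31) - Real.log (1 - 1 / 31) =
      4 * Real.log 2 - Real.log 3 - Real.log 5 := by
    rw [← Real.log_div (by norm_num) (by norm_num)]
    have e1 : ((1 + 1 / 31 : ℝ) / (1 - 1 / 31)) = 2 ^ 4 / (3 * 5) := by norm_num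
    rw [e1, Real.log_div (by norm_num) (by norm_num), Real.log_pow,
      Real.log_mul (by norm_num) (by norm_num)]
    push_cast; ring
  rw [e, abs_of_nonneg (by norm_num : (0 : ℝ) ≤ 1 / 31)] at h
  simp only [Finset.sum_range_succ, Finset.sum_range_zero] at h
  rw [abs_le] at h ⊢
  norm_num at h ⊢
  constructor <;> linarith [h.1, h.2]

lemma lb_bd : |(10 : ℝ) ^ 21 * (2 * Real.log 5 - 3 * Real.log 2 - Real.log 3) -
    40821994520255129555| ≤ 1 := by
  have h := artanh_aux (x := 1 / 49) (by rw [abs_of_nonneg] <;> norm_num) 12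
  have e : Real.log (1 + 1 / 49) - Real.log (1 - 1 / 49) =
      2 * Real.log 5 - 3 * Real.log 2 - Real.log 3 := by
    rw [← Real.log_div (by norm_num) (by norm_num)]
    have e1 : ((1 + 1 / 49 : ℝ) / (1 - 1 / 49)) = 5 ^ 2 / (2 ^ 3 * 3) := by norm_num
    rw [e1, Real.log_div (by norm_num) (by norm_num), Real.log_pow,
      Real.log_mul (by norm_num) (by norm_num), Real.log_pow]
    push_cast; ring
  rw [e, abs_of_nonneg (by norm_num : (0 : ℝ) ≤ 1 / 49)] at h
  simp only [Finset.sum_range_succ, Finset.sum_range_zero] at h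
  rw [abs_le] at h ⊢
  norm_num at h ⊢
  constructor <;> linarith [h.1, h.2]

lemma lc_bd : |(10 : ℝ) ^ 21 * (4 * Real.log 3 - 4 * Real.log 2 - Real.log 5) -
    12422519998557153311| ≤ 1 := by
  have h := artanh_aux (x := 1 / 161) (by rw [abs_of_nonneg] <;> norm_num) 10
  have e : Real.log (1 + 1 / 161) - Real.log (1 - 1 / 161) =
      4 * Real.log 3 - 4 * Real.log 2 - Real.log 5 := by
    rw [← Real.log_div (by norm_num) (by norm_num)]
    have e1 : ((1 + 1 / 161 : ℝ) / (1 - 1 / 161)) = 3 ^ 4 / (2 ^ 4 * 5) := by norm_num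
    rw [e1, Real.log_div (by norm_num) (by norm_num), Real.log_pow,
      Real.log_mul (by norm_num) (by norm_num), Real.log_pow]
    push_cast; ring
  rw [e, abs_of_nonneg (by norm_num : (0 : ℝ) ≤ 1 / 161)] at h
  simp only [Finset.sum_range_succ, Finset.sum_range_zero] at h
  rw [abs_le] at h ⊢
  norm_num at h ⊢
  constructor <;> linarith [h.1, h.2]

lemma ld_bd : |(10 : ℝ) ^ 21 * (2 * Real.log 7 - 4 * Real.log 2 - Real.log 3) -
    20619287202735681147| ≤ 1 := by
  have h := artanh_aux (x := 1 / 97) (by rw [abs_of_nonneg] <;> norm_num) 11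
  have e : Real.log (1 + 1 / 97) - Real.log (1 - 1 / 97) =
      2 * Real.log 7 - 4 * Real.log 2 - Real.log 3 := by
    rw [← Real.log_div (by norm_num) (by norm_num)]
    have e1 : ((1 + 1 / 97 : ℝ) / (1 - 1 / 97)) = 7 ^ 2 / (2 ^ 4 * 3) := by norm_num
    rw [e1, Real.log_div (by norm_num) (by norm_num), Real.log_pow,
      Real.log_mul (by norm_num) (by norm_num), Real.log_pow]
    push_cast; ring
  rw [e, abs_of_nonneg (by norm_num : (0 : ℝ) ≤ 1 / 97)] at h
  simp only [Finset.sum_range_succ, Finset.sum_range_zero] at h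
  rw [abs_le] at h ⊢
  norm_num at h ⊢
  constructor <;> linarith [h.1, h.2]

lemma log_163_eq : Real.log (16 / 3) = 4 * Real.log 2 - Real.log 3 := by
  rw [Real.log_div (by norm_num) (by norm_num), show (16 : ℝ) = 2 ^ 4 by norm_num, Real.log_pow]
  push_cast; ring

lemma log_4912_eq : Real.log (49 / 12) = 2 * Real.log 7 - 2 * Real.log 2 - Real.log 3 := by
  rw [Real.log_div (by norm_num) (by norm_num), show (49 : ℝ) = 7 ^ 2 by norm_num, Real.log_pow,
    show (12 : ℝ) = 2 ^ 2 * 3 by norm_num, Real.log_mul (by norm_num) (by norm_num), Real.log_pow]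
  push_cast; ring

lemma log_72_eq : Real.log (7 / 2) = Real.log 7 - Real.log 2 := by
  rw [Real.log_div (by norm_num) (by norm_num)]

lemma log_143_eq : Real.log (14 / 3) = Real.log 2 + Real.log 7 - Real.log 3 := by
  rw [Real.log_div (by norm_num) (by norm_num), show (14 : ℝ) = 2 * 7 by norm_num,
    Real.log_mul (by norm_num) (by norm_num)]

/-- `log (16/3)` with error `10^(-18)`. -/
theorem log_163_bd : |(10 : ℝ) ^ 18 * Real.log (16 / 3) - 1673976433571671546| ≤ 1 := by
  rw [log_163_eq]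
  have ha := la_bd
  have hb := lb_bd
  have hc := lc_bd
  rw [abs_le] at ha hb hc ⊢
  constructor <;> linarith [ha.1, ha.2, hb.1, hb.2, hc.1, hc.2]

/-- `log (49/12)` with error `10^(-18)`. -/
theorem log_4912_bd : |(10 : ℝ) ^ 18 * Real.log (49 / 12) - 1406913648322626300| ≤ 1 := by
  rw [log_4912_eq]
  have ha := la_bd
  have hb := lb_bd
  have hc := lc_bd
  have hd := ld_bd
  rw [abs_le] at ha hb hc hd ⊢
  constructor <;> linarith [ha.1, ha.2, hb.1, hb.2, hc.1, hc.2, hd.1, hd.2]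

/-- `log (7/2)` with error `10^(-18)`. -/
theorem log_72_bd : |(10 : ℝ) ^ 18 * Real.log (7 / 2) - 1252762968495367996| ≤ 1 := by
  rw [log_72_eq]
  have ha := la_bd
  have hb := lb_bd
  have hc := lc_bd
  have hd := ld_bd
  rw [abs_le] at ha hb hc hd ⊢
  constructor <;> linarith [ha.1, ha.2, hb.1, hb.2, hc.1, hc.2, hd.1, hd.2]

lemma sqrt21_lo : (4582575694955840006588047 : ℝ) / 10 ^ 24 ≤ Real.sqrt 21 := by
  apply Real.le_sqrt_of_sq_le
  norm_num

lemma sqrt21_hi : Real.sqrt 21 ≤ (4582575694955840006588048 : ℝ) / 10 ^ 24 := by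
  rw [Real.sqrt_le_left (by norm_num)]
  norm_num

/-- `sqrt 21` with error `10^(-18)`. -/
theorem sqrt_21_bd : |(10 : ℝ) ^ 18 * Real.sqrt 21 - 4582575694955840007| ≤ 1 := by
  have h1 := sqrt21_lo
  have h2 := sqrt21_hi
  rw [abs_le]
  norm_num at h1 h2 ⊢
  constructor <;> linarith

lemma sqrt_37_eq : Real.sqrt (3 / 7) = Real.sqrt 21 / 7 := by
  rw [Real.sqrt_eq_iff_mul_self_eq (by norm_num) (by positivity)]
  have h := Real.mul_self_sqrt (show (0 : ℝ) ≤ 21 by norm_num)
  nlinarith [h]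

/-- `log ((5 + sqrt 21) / 2)` with error `10^(-18)`. -/
theorem log_u_bd : |(10 : ℝ) ^ 18 * Real.log ((5 + Real.sqrt 21) / 2) - 1566799236972411079| ≤ 1 := by
  have h := artanh_aux (x := 908340220898583854650 / 10 ^ 24)
    (by rw [abs_of_nonneg] <;> norm_num) 8
  rw [abs_of_nonneg (by norm_num : (0 : ℝ) ≤ 908340220898583854650 / 10 ^ 24)] at h
  have h1 := sqrt21_lo
  have h2 := sqrt21_hi
  set s := Real.sqrt 21 with hs
  set p : ℝ := 1 + 908340220898583854650 / 10 ^ 24 with hp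
  set m : ℝ := 1 - 908340220898583854650 / 10 ^ 24 with hm
  have hp0 : 0 < p := by rw [hp]; norm_num
  have hm0 : 0 < m := by rw [hm]; norm_num
  have e : Real.log ((5 + s) / 2) = (3 * Real.log 2 + Real.log 3 - Real.log 5) -
      (Real.log p - Real.log m) + Real.log ((5 + s) / 2 * p / (24 / 5 * m)) := by
    have e0 : Real.log ((5 + s) / 2 * p / (24 / 5 * m)) =
        Real.log ((5 + s) / 2) + Real.log p - (Real.log (24 / 5) + Real.log m) := by
      rw [Real.log_div (by positivity) (by positivity), Real.log_mul (by positivity) hp0.ne',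
        Real.log_mul (by norm_num) hm0.ne']
    have e2 : Real.log (24 / 5) = 3 * Real.log 2 + Real.log 3 - Real.log 5 := by
      rw [Real.log_div (by norm_num) (by norm_num), show (24 : ℝ) = 2 ^ 3 * 3 by norm_num,
        Real.log_mul (by norm_num) (by norm_num), Real.log_pow]
      push_cast; ring
    rw [e0, e2]
    ring
  have hr1 : |(5 + s) / 2 * p / (24 / 5 * m) - 1| ≤ 1 / 10 ^ 22 := by
    rw [div_sub_one (by positivity), abs_div, abs_of_pos (show 0 < 24 / 5 * m by positivity),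
      div_le_iff₀ (by positivity), abs_le]
    rw [hp, hm]
    norm_num at h1 h2 ⊢
    constructor <;> linarith
  have hr0 : 0 < (5 + s) / 2 * p / (24 / 5 * m) := by positivity
  have hr2 := Real.log_le_sub_one_of_pos hr0
  have hr3 : 1 - ((5 + s) / 2 * p / (24 / 5 * m))⁻¹ ≤
      Real.log ((5 + s) / 2 * p / (24 / 5 * m)) := Real.one_sub_inv_le_log_of_pos hr0
  rw [abs_le] at hr1
  have hr4 : ((5 + s) / 2 * p / (24 / 5 * m))⁻¹ ≤ 1 + 1 / 10 ^ 20 := by
    rw [inv_le_comm₀ hr0 (by positivity)]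
    refine le_trans ?_ (by linarith [hr1.1] : 1 - 1 / 10 ^ 22 ≤ (5 + s) / 2 * p / (24 / 5 * m))
    norm_num
  have ha := la_bd
  have hb := lb_bd
  have hc := lc_bd
  rw [e]
  set L := Real.log ((5 + s) / 2 * p / (24 / 5 * m)) with hL
  have hL1 : L ≤ 1 / 10 ^ 20 := by
    have : (1 : ℝ) / 10 ^ 22 ≤ 1 / 10 ^ 20 := by norm_num
    linarith [hr1.2]
  have hL2 : -(1 / 10 ^ 20) ≤ L := by linarith
  simp only [Finset.sum_range_succ, Finset.sum_range_zero] at h
  rw [abs_le] at h ha hb hc ⊢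
  norm_num at h ⊢
  norm_num at hL1 hL2
  constructor <;> linarith [h.1, h.2, ha.1, ha.2, hb.1, hb.2, hc.1, hc.2]

end Vale.Agent.P224.S7
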