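import Vale.Agent.P224.S7.Wt

/-!
The pointwise inequality of a certificate with a parameter from base functions, polynomial
approximations of the base functions and the positivity of a polynomial.
-/

namespace Vale.Agent.P224.S7

open Vale.Agent.P224.UE Vale.Agent.P224.POS Vale.Agent.P224.PO Vale.Agent.P224.SO Set
open scoped RealInnerProductSpace

noncomputable section

/-- a base function: `D b ≈ B` with an error at most `E ω (1 - T) ^ h`; the polynomial which
multiplies it is `u ^ 2 L2 + v ^ 2 L3` -/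
structure Bs where
  B : PE
  E : ℕ
  h : ℕ
  L2 : WE
  L3 : WE

/-- the zero base function -/
def Bs.z : Bs := ⟨.c 0, 0, 0, .c 0, .c 0⟩

/-- the quadratic polynomial of a base function -/
def Bs.q (x : Bs) : PE := .add (.mul (.pow (.v 2) 2) x.L2.pe) (.mul (.pow (.v 3) 2) x.L3.pe)

/-- the polynomial which multiplies the base function number `p` -/
def Wt (p : ℕ) : List (PE × List PE) → PE
  | [] => .c 0
  | c :: l => .add (.mul (c.2.getD p (.c 0)) c.1) (Wt p l)

/-- the sum of the columns -/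
def tot (T : ℝ) (f : ℕ → ℝ) (l : List ((ℝ → ℝ) × PE × List PE)) : ℝ :=
  (l.map fun c => c.1 T * PE.ev f c.2.1).sum

/-- the weight `u ^ 2 (1 - T s) ^ n2 + v ^ 2 (1 - T s) ^ n3` -/
def pW (n2 n3 : ℕ) : PE := .add (.mul (.pow (.v 2) 2) (.pow pP n2)) (.mul (.pow (.v 3) 2) (.pow pP n3))

/-- the approximate total -/
def Qs : List Bs → PE
  | [] => .c 0
  | x :: l => .add (.mul x.B x.q) (Qs l)

/-- the error is small enough -/
def errOk (n2 n3 : ℕ) (l : List Bs) (Dl : ℕ) : Bool :=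
  (l.all fun x => decide (x.E = 0) || (WE.ok x.h n2 x.L2 && WE.ok x.h n3 x.L3))
    && decide ((l.map fun x => x.E * WE.bd x.h n2 x.L2).sum ≤ Dl)
    && decide ((l.map fun x => x.E * WE.bd x.h n3 x.L3).sum ≤ Dl)

lemma tot_eq {T : ℝ} {f : ℕ → ℝ} {l : List ((ℝ → ℝ) × PE × List PE)} {n : ℕ} {b : ℕ → ℝ → ℝ}
    {Dn : ℝ} (h : ∀ c ∈ l, Dn * c.1 T = ∑ p ∈ Finset.range n, b p T * PE.ev f (c.2.2.getD p (.c 0))) :
    Dn * tot T f l = ∑ p ∈ Finset.range n, b p T * PE.ev f (Wt p (l.map fun c => c.2)) := by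
  induction l with
  | nil => simp [tot, Wt]
  | cons c l ih =>
    have h1 := h c List.mem_cons_self
    have h2 := ih fun u hu => h u (List.mem_cons_of_mem _ hu)
    have e1 : tot T f (c :: l) = c.1 T * PE.ev f c.2.1 + tot T f l := by
      simp [tot]
    have e2 : ∀ p, PE.ev f (Wt p ((c :: l).map fun c => c.2))
        = PE.ev f (c.2.2.getD p (.c 0)) * PE.ev f c.2.1
          + PE.ev f (Wt p (l.map fun c => c.2)) := by
      intro p
      rw [List.map_cons, Wt, PE.ev_add, PE.ev_mul]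
    rw [e1, mul_add, h2, ← mul_assoc, h1, Finset.sum_mul, ← Finset.sum_add_distrib]
    refine Finset.sum_congr rfl fun p _ => ?_
    rw [e2]
    ring

/-- the error terms -/
lemma err_le {n2 n3 : ℕ} {T : ℝ} {f : ℕ → ℝ} (hf : Rg f) (hT : f 4 = T) {l : List Bs} {δ : ℕ → ℝ} {ω : ℝ}
    (hω : 0 ≤ ω)
    (hδ : ∀ p < l.length, |δ p| ≤ (l.getD p Bs.z).E * ω
      * (1 - T) ^ (l.getD p Bs.z).h)
    (hl : ∀ x ∈ l, x.E = 0 ∨ (WE.ok x.h n2 x.L2 = true ∧ WE.ok x.h n3 x.L3 = true)) :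
    |∑ p ∈ Finset.range l.length, δ p * PE.ev f (l.getD p Bs.z).q|
      ≤ ω * (f 2 ^ 2 * ((l.map fun x => x.E * WE.bd x.h n2 x.L2).sum * (1 - f 4 * f 0) ^ n2)
        + f 3 ^ 2 * ((l.map fun x => x.E * WE.bd x.h n3 x.L3).sum * (1 - f 4 * f 0) ^ n3)) := by
  induction l generalizing δ with
  | nil => simp
  | cons x l ih =>
    have h1 := ih (δ := fun p => δ (p + 1)) (fun p hp => by
        have := hδ (p + 1) (by simpa using hp)
        simpa using this) (fun u hu => hl u (List.mem_cons_of_mem _ hu))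
    have h0 := hδ 0 (by simp)
    rw [List.getD_cons_zero] at h0
    rw [List.length_cons, Finset.sum_range_succ']
    simp only [List.getD_cons_succ, List.getD_cons_zero]
    have hP0 := hf.P0
    have hT1 : 0 ≤ 1 - T := by rw [← hT]; linarith [hf.T1]
    have key : |δ 0 * PE.ev f x.q| ≤ ω * (f 2 ^ 2 * ((x.E * WE.bd x.h n2 x.L2 : ℕ)
        * (1 - f 4 * f 0) ^ n2)
        + f 3 ^ 2 * ((x.E * WE.bd x.h n3 x.L3 : ℕ) * (1 - f 4 * f 0) ^ n3)) := by
      rcases hl x List.mem_cons_self with h2 | ⟨h2, h3⟩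
      · have h4 : δ 0 = 0 := by
          rw [h2] at h0
          simp only [Nat.cast_zero, zero_mul] at h0
          exact abs_nonpos_iff.1 h0
        rw [h4, zero_mul, abs_zero, h2]
        simp
      · have k2 := WE.le_bd hf h2
        have k3 := WE.le_bd hf h3
        rw [hT] at k2 k3
        rw [abs_mul]
        have e1 : |PE.ev f x.q| ≤ f 2 ^ 2 * |PE.ev f x.L2.pe|
            + f 3 ^ 2 * |PE.ev f x.L3.pe| := by
          rw [Bs.q, PE.ev_add, PE.ev_mul, PE.ev_mul, PE.ev_pow, PE.ev_pow, PE.ev_v, PE.ev_v]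
          refine (abs_add_le _ _).trans ?_
          rw [abs_mul, abs_mul, abs_of_nonneg (sq_nonneg (f 2)), abs_of_nonneg (sq_nonneg (f 3))]
        rw [hT]
        have hE : (0 : ℝ) ≤ x.E := Nat.cast_nonneg _
        calc |δ 0| * |PE.ev f x.q|
            ≤ (x.E * ω * (1 - T) ^ x.h) * (f 2 ^ 2 * |PE.ev f x.L2.pe|
              + f 3 ^ 2 * |PE.ev f x.L3.pe|) :=
              mul_le_mul h0 e1 (abs_nonneg _) ((abs_nonneg _).trans h0)
          _ = x.E * ω * (f 2 ^ 2 * (|PE.ev f x.L2.pe| * (1 - T) ^ x.h)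
              + f 3 ^ 2 * (|PE.ev f x.L3.pe| * (1 - T) ^ x.h)) := by ring
          _ ≤ x.E * ω * (f 2 ^ 2 * (WE.bd x.h n2 x.L2 * (1 - T * f 0) ^ n2)
              + f 3 ^ 2 * (WE.bd x.h n3 x.L3 * (1 - T * f 0) ^ n3)) := by gcongr
          _ = _ := by
            push_cast
            ring
    refine (abs_add_le _ _).trans ((add_le_add h1 key).trans (le_of_eq ?_))
    simp only [List.map_cons, List.sum_cons]
    push_cast
    ring

lemma Qs_eq {f : ℕ → ℝ} (l : List Bs) : PE.ev f (Qs l) = ∑ p ∈ Finset.range l.length,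
    PE.ev f (l.getD p Bs.z).B * PE.ev f (l.getD p Bs.z).q := by
  induction l with
  | nil => simp [Qs]
  | cons x l ih =>
    rw [List.length_cons, Finset.sum_range_succ']
    simp only [List.getD_cons_succ, List.getD_cons_zero]
    rw [← ih, Qs, PE.ev_add, PE.ev_mul]
    ring

/-- **The total** from the base functions: `b 0 = 1`, `b (p + 1)` is the base function number `p`
of the list. -/
theorem core {n2 n3 : ℕ} {T : ℝ} {f : ℕ → ℝ} (hf : Rg f) (hT : f 4 = T)
    {cols : List ((ℝ → ℝ) × PE × List PE)} {l : List Bs} {b : ℕ → ℝ → ℝ} (hb0 : b 0 T = 1)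
    {Dn : ℝ} (hcol : ∀ c ∈ cols, Dn * c.1 T
      = ∑ p ∈ Finset.range (l.length + 1), b p T * PE.ev f (c.2.2.getD p (.c 0)))
    (hid : ∀ p < l.length, PE.ev f (Wt (p + 1) (cols.map fun c => c.2))
      = PE.ev f (l.getD p Bs.z).q)
    {D ω : ℝ} (hω : 0 ≤ ω)
    (hδ : ∀ p < l.length, |D * b (p + 1) T - PE.ev f (l.getD p Bs.z).B|
      ≤ (l.getD p Bs.z).E * ω * (1 - T) ^ (l.getD p Bs.z).h)
    {Dl : ℕ} (herr : errOk n2 n3 l Dl = true) :
    D * PE.ev f (Wt 0 (cols.map fun c => c.2)) + PE.ev f (Qs l) - ω * Dl * PE.ev f (pW n2 n3)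
      ≤ D * Dn * tot T f cols := by
  have h1 := tot_eq hcol
  rw [Finset.sum_range_succ', hb0, one_mul] at h1
  unfold errOk at herr
  rw [Bool.and_eq_true, Bool.and_eq_true, decide_eq_true_eq, decide_eq_true_eq] at herr
  obtain ⟨⟨hall, hs2⟩, hs3⟩ := herr
  have hl : ∀ x ∈ l, x.E = 0 ∨ (WE.ok x.h n2 x.L2 = true ∧ WE.ok x.h n3 x.L3 = true) := by
    intro x hx
    have := List.all_eq_true.1 hall x hx
    rw [Bool.or_eq_true, decide_eq_true_eq, Bool.and_eq_true] at this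
    exact this
  have h2 := err_le hf hT (l := l) (δ := fun p => D * b (p + 1) T
    - PE.ev f (l.getD p Bs.z).B) hω hδ hl
  have e1 : D * Dn * tot T f cols = D * PE.ev f (Wt 0 (cols.map fun c => c.2)) + PE.ev f (Qs l)
      + ∑ p ∈ Finset.range l.length, (D * b (p + 1) T
        - PE.ev f (l.getD p Bs.z).B)
        * PE.ev f (l.getD p Bs.z).q := by
    have e2 : D * ∑ p ∈ Finset.range l.length, b (p + 1) T
          * PE.ev f (Wt (p + 1) (cols.map fun c => c.2))
        = (∑ p ∈ Finset.range l.length, PE.ev f (l.getD p Bs.z).B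
            * PE.ev f (l.getD p Bs.z).q)
          + ∑ p ∈ Finset.range l.length, (D * b (p + 1) T
            - PE.ev f (l.getD p Bs.z).B)
            * PE.ev f (l.getD p Bs.z).q := by
      rw [← Finset.sum_add_distrib, Finset.mul_sum]
      refine Finset.sum_congr rfl fun p hp => ?_
      rw [hid p (Finset.mem_range.1 hp)]
      ring
    rw [mul_assoc, h1, mul_add, e2, Qs_eq]
    ring
  have h3 := (abs_le.1 h2).1
  have hP0 := hf.P0
  have c2 : (((l.map fun x => x.E * WE.bd x.h n2 x.L2).sum : ℕ) : ℝ) ≤ Dl := by exact_mod_cast hs2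
  have c3 : (((l.map fun x => x.E * WE.bd x.h n3 x.L3).sum : ℕ) : ℝ) ≤ Dl := by exact_mod_cast hs3
  have hW : PE.ev f (pW n2 n3) = f 2 ^ 2 * (1 - f 4 * f 0) ^ n2 + f 3 ^ 2 * (1 - f 4 * f 0) ^ n3 := by
    simp only [pW, pP, PE.ev_add, PE.ev_mul, PE.ev_pow, PE.ev_sub, PE.ev_v, PE.ev_c, Int.cast_one]
  have h4 : ω * (f 2 ^ 2 * ((l.map fun x => x.E * WE.bd x.h n2 x.L2).sum * (1 - f 4 * f 0) ^ n2)
        + f 3 ^ 2 * ((l.map fun x => x.E * WE.bd x.h n3 x.L3).sum * (1 - f 4 * f 0) ^ n3))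
      ≤ ω * Dl * PE.ev f (pW n2 n3) := by
    rw [hW]
    calc _ ≤ ω * (f 2 ^ 2 * (Dl * (1 - f 4 * f 0) ^ n2) + f 3 ^ 2 * (Dl * (1 - f 4 * f 0) ^ n3)) := by
          gcongr
      _ = _ := by ring
  rw [e1]
  linarith

end

end Vale.Agent.P224.S7
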