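import Vale.Agent.P224.S7.Fun7
import Vale.Agent.P224.H874.Der

/-!
Combinations `n0 + n1 f1 + n2 f2 + n3 F3` with integer polynomial coefficients (`m = 7`): algebra
and derivatives, all kernel-computable.
-/

namespace Vale.Agent.P224.S7

open Set Filter Real Vale.Agent.P224.SP
open scoped Topology

/-- the constant in `F3` -/
noncomputable def cst7 : ℝ := 9 / 28 * √21

/-- `F3 = b13 (L13 - L13 1 + cst7)` -/
noncomputable def F3 (T : ℝ) : ℝ := b13 T * (L13 T - L13 1 + cst7)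

/-- `n0 + n1 f1 + n2 f2 + n3 F3` -/
noncomputable def G4 (N : Q4) (T : ℝ) : ℝ :=
  ev N.n0 T + ev N.n1 T * f1 T + ev N.n2 T * f2 T + ev N.n3 T * F3 T

/-- `T (1 - T^2) (49 - T^2)` -/
noncomputable def Del (T : ℝ) : ℝ := T * (1 - T ^ 2) * (49 - T ^ 2)

/-- list of `Del` -/
def DelL : List ℤ := [0, 49, 0, -50, 0, 1]
/-- `(1 - T^2) (49 - T^2)` -/
def d0L : List ℤ := [49, 0, -50, 0, 1]
/-- `T (1 + T) (7 + T) (4 - T)` -/
def d1L : List ℤ := [0, 28, 25, -4, -1]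
/-- `T (2 T^3 - 50 T)` -/
def d2L : List ℤ := [0, 0, -50, 0, 2]
/-- `T (1 - T) (7 + T) (3 - T)` -/
def d3L : List ℤ := [0, 21, -25, 3, 1]

lemma ev_DelL (T : ℝ) : ev DelL T = Del T := by
  simp only [DelL, Del, ev_cons, ev_nil]; push_cast; ring
lemma ev_d0L (T : ℝ) : ev d0L T = (1 - T ^ 2) * (49 - T ^ 2) := by
  simp only [d0L, ev_cons, ev_nil]; push_cast; ring
lemma ev_d1L (T : ℝ) : ev d1L T = T * (1 + T) * (7 + T) * (4 - T) := by
  simp only [d1L, ev_cons, ev_nil]; push_cast; ring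
lemma ev_d2L (T : ℝ) : ev d2L T = T * (2 * T ^ 3 - 50 * T) := by
  simp only [d2L, ev_cons, ev_nil]; push_cast; ring
lemma ev_d3L (T : ℝ) : ev d3L T = T * (1 - T) * (7 + T) * (3 - T) := by
  simp only [d3L, ev_cons, ev_nil]; push_cast; ring

/-! ### algebra -/

lemma G4_add (N M : Q4) (T : ℝ) : G4 (N.add M) T = G4 N T + G4 M T := by
  simp only [G4, Q4.add, ev_addL]; ring
lemma G4_smul (k : ℤ) (N : Q4) (T : ℝ) : G4 (N.smul k) T = (k : ℝ) * G4 N T := by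
  simp only [G4, Q4.smul, ev_smulL]; ring
lemma G4_mulp (l : List ℤ) (N : Q4) (T : ℝ) : G4 (N.mulp l) T = ev l T * G4 N T := by
  simp only [G4, Q4.mulp, ev_mulL]; ring
lemma G4_zero (T : ℝ) : G4 Q4.zero T = 0 := by
  simp only [G4, Q4.zero, ev_nil]; ring

lemma G4_of_eq {N M : Q4} (h : N.eq M = true) (T : ℝ) : G4 N T = G4 M T := by
  simp only [Q4.eq, Bool.and_eq_true] at h
  obtain ⟨⟨⟨h0, h1⟩, h2⟩, h3⟩ := h
  simp only [G4, ev_of_eqL h0, ev_of_eqL h1, ev_of_eqL h2, ev_of_eqL h3]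

/-! ### derivatives -/

/-- the coefficients of `Del (G4 N)'` -/
def dQ0 (N : Q4) : Q4 :=
  ⟨addL (mulL DelL (derL N.n0))
      (smulL (-1) (mulL d0L (addL N.n1 (addL (smulL 2 N.n2) N.n3)))),
    addL (mulL DelL (derL N.n1)) (smulL (-1) (mulL d1L N.n1)),
    addL (mulL DelL (derL N.n2)) (mulL d2L N.n2),
    addL (mulL DelL (derL N.n3)) (mulL d3L N.n3)⟩

section

variable {T : ℝ}

lemma Del_pos (h0 : 0 < T) (h1 : T < 1) : 0 < Del T := by
  unfold Del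
  have h2 : T ^ 2 < 1 := by nlinarith
  exact mul_pos (mul_pos h0 (by linarith)) (by linarith)

lemma hasDerivAt_f1' (h0 : 0 < T) (h1 : T < 1) :
    HasDerivAt f1 ((-(ev d1L T) * f1 T - ev d0L T) / Del T) T := by
  refine (hasDerivAt_f1 h0 h1).congr_deriv ?_
  rw [ev_d1L, ev_d0L, Del]
  have e1 : (1 - T) ≠ 0 := by linarith
  have e2 : (1 + T) ≠ 0 := by linarith
  have e3 : (7 - T) ≠ 0 := by linarith
  have e4 : (7 + T) ≠ 0 := by linarith
  have e5 : T ≠ 0 := h0.ne'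
  have e6 : (1 - T ^ 2) = (1 - T) * (1 + T) := by ring
  have e7 : (49 - T ^ 2) = (7 - T) * (7 + T) := by ring
  have e8 : (1 - T / 7) = (7 - T) / 7 := by ring
  rw [e6, e7, e8]
  field_simp

lemma hasDerivAt_f2' (h0 : 0 < T) (h1 : T < 1) :
    HasDerivAt f2 ((ev d2L T * f2 T - 2 * ev d0L T) / Del T) T := by
  refine (hasDerivAt_f2 h0 h1).congr_deriv ?_
  rw [ev_d2L, ev_d0L, Del]
  have h2 : T ^ 2 < 1 := by nlinarith
  have e5 : T ≠ 0 := h0.ne'
  have e6 : (1 - T ^ 2) ≠ 0 := by linarith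
  have e7 : (49 - T ^ 2) ≠ 0 := by linarith
  have e8 : (1 - T ^ 2 / 49) = (49 - T ^ 2) / 49 := by ring
  rw [e8]
  field_simp
  ring

lemma hasDerivAt_F3 (h0 : 0 < T) (h1 : T < 1) :
    HasDerivAt F3 ((ev d3L T * F3 T - ev d0L T) / Del T) T := by
  have h : HasDerivAt (fun T => b13 T * (L13 T - L13 1 + cst7)) _ T :=
    (hasDerivAt_b13 h0 h1.le).fun_mul (((hasDerivAt_L13 h0 h1.le).sub_const (L13 1)).add_const cst7)
  refine h.congr_deriv ?_
  have hs := b13_pos h0 h1.le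
  have hq := b13_sq h0 h1.le
  have key : ∀ s q l : ℝ, 0 < s → s ^ 2 = q → (3 / 7 - T / 7) / s * l + s * (-1 / (T * s)) =
      (3 / 7 - T / 7) / q * (s * l) - 1 / T := by
    intro s q l hs hq
    subst hq
    have hs' := hs.ne'
    have hT' := h0.ne'
    field_simp
    ring
  rw [key _ _ _ hs hq, ev_d3L, ev_d0L, Del]
  unfold F3
  have e1 : (1 - T) ≠ 0 := by linarith
  have e2 : (1 + T) ≠ 0 := by linarith
  have e3 : (7 - T) ≠ 0 := by linarith
  have e4 : (7 + T) ≠ 0 := by linarith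
  have e5 : T ≠ 0 := h0.ne'
  have e6 : (1 - T ^ 2) = (1 - T) * (1 + T) := by ring
  have e7 : (49 - T ^ 2) = (7 - T) * (7 + T) := by ring
  have e8 : (1 - T / 7) = (7 - T) / 7 := by ring
  rw [e6, e7, e8]
  field_simp

/-- `(G4 N)' = G4 (dQ0 N) / Del` -/
theorem hasDerivAt_G4 (N : Q4) (h0 : 0 < T) (h1 : T < 1) :
    HasDerivAt (G4 N) (G4 (dQ0 N) T / Del T) T := by
  have h : HasDerivAt (fun T => ev N.n0 T + ev N.n1 T * f1 T + ev N.n2 T * f2 T +
      ev N.n3 T * F3 T) _ T :=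
    (((hasDerivAt_ev N.n0 T).fun_add ((hasDerivAt_ev N.n1 T).fun_mul (hasDerivAt_f1' h0 h1))).fun_add
      ((hasDerivAt_ev N.n2 T).fun_mul (hasDerivAt_f2' h0 h1))).fun_add
      ((hasDerivAt_ev N.n3 T).fun_mul (hasDerivAt_F3 h0 h1))
  refine h.congr_deriv ?_
  have hD := (Del_pos h0 h1).ne'
  simp only [G4, dQ0, ev_addL, ev_smulL, ev_mulL, ev_DelL]
  push_cast
  field_simp
  ring

end

end Vale.Agent.P224.S7
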