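import Vale.Agent.P224.S7.WtG

/-!
Parts of degree below two; polynomials in one variable.
-/

namespace Vale.Agent.P224.S7

open Vale.Agent.P224.UE Vale.Agent.P224.POS Vale.Agent.P224.PO Vale.Agent.P224.SO Set

noncomputable section

/-- the values of the variables for a polynomial in `T` -/
def fT (T : ℝ) (i : ℕ) : ℝ := if i = 4 then T else 0

/-- only the variable `T` occurs -/
def only4 (e : PE) : Bool :=
  PE.rec (motive := fun _ => Bool) (fun _ => true) (fun i => Nat.beq i 4)
    (fun _ _ x y => Bool.rec (motive := fun _ => Bool) false y x)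
    (fun _ _ x y => Bool.rec (motive := fun _ => Bool) false y x)
    (fun _ _ x y => Bool.rec (motive := fun _ => Bool) false y x) (fun _ _ x => x) e

lemma ev_only4 {f : ℕ → ℝ} {T : ℝ} (hf : f 4 = T) (e : PE) (h : only4 e = true) :
    PE.ev f e = PE.ev (fT T) e := by
  induction e with
  | c n => rfl
  | v i =>
    have h1 : Nat.beq i 4 = true := h
    have h2 : i = 4 := Nat.eq_of_beq_eq_true h1
    subst h2
    rw [PE.ev_v, PE.ev_v, hf]
    simp [fT]
  | add a b ha hb =>
    obtain ⟨h1, h2⟩ := band_eq (show Bool.rec (motive := fun _ => Bool) false (only4 b) (only4 a)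
      = true from h)
    rw [PE.ev_add, PE.ev_add, ha h1, hb h2]
  | sub a b ha hb =>
    obtain ⟨h1, h2⟩ := band_eq (show Bool.rec (motive := fun _ => Bool) false (only4 b) (only4 a)
      = true from h)
    rw [PE.ev_sub, PE.ev_sub, ha h1, hb h2]
  | mul a b ha hb =>
    obtain ⟨h1, h2⟩ := band_eq (show Bool.rec (motive := fun _ => Bool) false (only4 b) (only4 a)
      = true from h)
    rw [PE.ev_mul, PE.ev_mul, ha h1, hb h2]
  | pow a n ha => rw [PE.ev_pow, PE.ev_pow, ha h]

/-- the value at `u = v = 0` -/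
def z0 (e : PE) : PE :=
  PE.rec (motive := fun _ => PE) (fun n => .c n)
    (fun i => Bool.rec (motive := fun _ => PE) (Bool.rec (motive := fun _ => PE) (.v i) (.c 0)
      (Nat.beq i 3)) (.c 0) (Nat.beq i 2))
    (fun _ _ x y => .add x y) (fun _ _ x y => .sub x y) (fun _ _ x y => .mul x y)
    (fun _ n x => .pow x n) e

/-- the derivative in `v` at `u = v = 0` -/
def d3 (e : PE) : PE :=
  PE.rec (motive := fun _ => PE) (fun _ => .c 0)
    (fun i => Bool.rec (motive := fun _ => PE) (.c 0) (.c 1) (Nat.beq i 3))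
    (fun _ _ x y => .add x y) (fun _ _ x y => .sub x y)
    (fun a b x y => .add (.mul (z0 a) y) (.mul x (z0 b)))
    (fun a n x => .mul (.mul (.c (Int.ofNat n)) (.pow (z0 a) (Nat.pred n))) x) e

/-- the part of degree below two -/
def pl (M : PE) : PE := .add (z0 M) (.mul (.v 3) (d3 M))

end

end Vale.Agent.P224.S7
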