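import Vale.Agent.P224.SP.Left5
import Vale.Agent.P224.S7.Fun7

/-!
Polynomial models at `T = 0` for `m = 7`: on `(0, 1/4]`, with remainder a multiple of `T ^ 24`.
-/

namespace Vale.Agent.P224.S7

open Set Filter Real
open Vale.Agent.P224.SP (qR qD qL qU qL_eq_qU Ap SL wL evq ev ev_cons ev_nil ap_of_evq sqL ev_sqL
  sqrt_encl qU_encl)
open scoped Topology

/-- regular part of `l1` -/
noncomputable def lam1 (T : ℝ) : ℝ := Real.log ((qD (-8 / 7) T + y1 T) / 2)

/-- regular part of `L0` -/
noncomputable def lam0 (T : ℝ) : ℝ := Real.log ((qD (-50 / 49) (T ^ 2) + y12 T) / 2)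

/-- regular part of `L13` -/
noncomputable def lam3 (T : ℝ) : ℝ := Real.log ((qD (6 / 7) T + b13 T) / 2)

lemma lam1_eq (T : ℝ) : lam1 T = qU (-8 / 7) (1 / 7) T := rfl
lemma lam0_eq (T : ℝ) : lam0 T = qU (-50 / 49) (1 / 49) (T ^ 2) := rfl
lemma lam3_eq (T : ℝ) : lam3 T = qU (6 / 7) (-1 / 7) T := rfl

/-- `f1 = y1 (lam1 + log (14/3) - log T)` -/
lemma f1_left {T : ℝ} (h0 : 0 < T) (h1 : T < 1) :
    f1 T = y1 T * (lam1 T + Real.log (14 / 3) - Real.log T) := by
  unfold f1 l1
  rw [qL_eq_qU (by norm_num) h0 (qR_1_pos h0 h1) (qD_1_pos h1.le), lam1_eq]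
  have e : (2 : ℝ) / (3 / 7) = 14 / 3 := by norm_num
  rw [e]
  ring

/-- `f2 = y12 (lam0 + log (49/12) - 2 log T)` -/
lemma f2_left {T : ℝ} (h0 : 0 < T) (h1 : T < 1) :
    f2 T = y12 T * (lam0 T + Real.log (49 / 12) - 2 * Real.log T) := by
  unfold f2 L0
  rw [qL_eq_qU (by norm_num) (by positivity) (qR_12_pos h0 h1) (qD_12_pos h0 h1.le), lam0_eq,
    Real.log_pow]
  have e : (2 : ℝ) / (24 / 49) = 49 / 12 := by norm_num
  rw [e]
  push_cast
  ring

/-- `f3 = b13 (lam3 + log (7/2) - log T)` -/
lemma f3_left {T : ℝ} (h0 : 0 < T) (h1 : T ≤ 1) :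
    f3 T = b13 T * (lam3 T + Real.log (7 / 2) - Real.log T) := by
  unfold f3 L13
  rw [qL_eq_qU (by norm_num) h0 (qR_3_pos h0 h1) (qD_3_pos h0), lam3_eq]
  have e : (2 : ℝ) / (4 / 7) = 7 / 2 := by norm_num
  rw [e]
  ring

/-- Taylor coefficients at `0` (times `dY1`) -/
def cY1 : List ℤ :=
  [14349105805436343467638784, -8199489031677910552936448, -1317775022948235624579072,
  -753014298827563214045184, -490803962628679594868736, -349613781598511492235264,
  -264611529753818450853888, -209070452709672772829184, -170510819502390927372288,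
  -142479784982308238180352, -121357852032574624352256, -104978681488535136952320,
  -91976054485044998628864, -81450661513613060487168, -72789077061487867997952,
  -65560117947403171599360, -59452818572316300192432, -54237881106752746398912,
  -49742920853227127156904, -45836111441682359846496, -42415105991886629254386,
  -39399364141387970656104, -36724731852868709297193, -34339544073699742770156]

/-- common denominator -/
def dY1 : ℤ := 14349105805436343467638784

/-- remainder constant -/
def eY1 : ℤ := 43047317416309030402916

/-- Taylor coefficients at `0` (times `dY12`) -/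
def cY12 : List ℤ :=
  [3909821048582988049, 0, -1994806657440300025, 0, -468983116198209312, 0, -239277100101127200,
  0, -150207420390013728, 0, -105337732114490400, 0, -79082882532620064, 0, -62176215067092000,
  0, -50540447663627040, 0, -42130636243668000, 0, -35819871979415328, 0, -30941361967111200, 0]

/-- common denominator -/
def dY12 : ℤ := 3909821048582988049

/-- remainder constant -/
def eY12 : ℤ := 31278568388663904

/-- Taylor coefficients at `0` (times `dB13`) -/
def cB13 : List ℤ :=
  [27368747340080916343, 11729463145748964147, -4468366912666272056, 1915014391142688024,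
  -1185485099278806872, 820720453346866296, -612283512814328824, 479351790535924824,
  -388502453481655576, 323154303966508728, -274291238238050488, 236621233912999320,
  -206854272388826328, 182847880592956152, -163152939191314296, 146757739443923160,
  -132936710188467864, 121157331090272568, -111020844688603192, 102223353306373656,
  -94529618405098072, 87755004849736056, -81752781468924664, 76405024263888216]

/-- common denominator -/
def dB13 : ℤ := 27368747340080916343

/-- remainder constant -/
def eB13 : ℤ := 82106242020242749

/-- Taylor coefficients at `0` (times `dLa1`) -/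
def cLa1 : List ℤ :=
  [0, -783963231690233991796233905111040, -286986540172317800568264197406720,
  -157325954658924508557747620413440, -102620187056390642102153704734720,
  -73653688458360904914383783067648, -56156379840125342218735548334080,
  -44639008327604313774967864688640, -36584409697117293331025915489280,
  -30691595077400292770158549565440, -26227105049641935907077974267904,
  -22749143665564580652457177006080, -19977333168740816141377069405440,
  -17726046355565895793345846087680, -15868006639133345754958269008640,
  -14313334822374324108992561829888, -12996942731807053702112125285590,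
  -11870658770245506491696783867520, -10898147905702286967929386034840,
  -10051541130627529677920327872320, -9309143331224934222258572067729,
  -8653840135011118552445219238960, -8071968821884795701913675213305,
  -7552504021682056226937202958760]

/-- common denominator -/
def dLa1 : ℤ := 1371935655457909485643409333944320

/-- remainder constant -/
def eLa1 : ℤ := 10975485243663275885147274671554

/-- Taylor coefficients at `0` (times `dLa0x`) -/
def cLa0x : List ℤ :=
  [0, -1128490623351941157000, -420535485355233582180, -233280929914069191000,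
  -152996524608105770130, -110120408970062337000, -84101832109792289100, -66928346665969635000,
  -54896247783660400425, -46081948866503165000, -39397510523240302356, -34186128326703711000]

/-- common denominator -/
def dLa0x : ℤ := 2211841621769804667720

/-- remainder constant -/
def eLa0x : ℤ := 44236832435396093354

/-- Taylor coefficients at `0` (times `dLa3`) -/
def cLa3 : List ℤ :=
  [0, 8971747188837821866564566480, -3631421481196261231704705480, 2014065695453388582290004720,
  -1327452390185187929236594020, 957335122773948339114469776, -732179932783354105311981720,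
  583236612112312859523142320, -478730111589909426725207730, 402086659271556554210195280,
  -343912891772545701477207336, 298527651890370580648829040, -262314390753741366939438540,
  232872867056547884100710160, -208554062658985841982944760, 188191561982816806629559344,
  -170939498953357406286079065, 156171102925355494388652240, -143413122767668770720263560,
  132302246452299558837362160, -122555422089287371029209364, 113949203754946797891173520,
  -106305097476284407119084120, 99478982349270891107048880]

/-- common denominator -/
def dLa3 : ℤ := 20934076773954917688650655120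

/-- remainder constant -/
def eLa3 : ℤ := 104670383869774588443253275

set_option maxRecDepth 20000 in
theorem ap_y1 : Ap SL wL y1 dY1 cY1 eY1 := by
  intro T hT
  have hA : ((0 : ℤ) : ℝ) ≤ (4 : ℤ) * T := by
    push_cast
    linarith [hT.1]
  have hB : ((4 : ℤ) : ℝ) * T ≤ (1 : ℤ) := by
    push_cast
    linarith [hT.2]
  have h := sqrt_encl (y := y1 T) (R := qR (-8 / 7) (1 / 7) T) (RL := [7, -8, 1]) (dR := 7) (by norm_num)
    (T := T) (by unfold qR evq; simp only [ev_cons, ev_nil]; push_cast; ring) rfl
    (PL := cY1 ++ [-eY1]) (QL := cY1 ++ [eY1]) (dP := dY1) (A := 0) (B := 1) (d := 4)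
    (by decide +kernel) hA hB (by decide +kernel) (by decide +kernel) (by decide +kernel)
  exact ap_of_evq (by decide +kernel) h.1 h.2 rfl

set_option maxRecDepth 20000 in
theorem ap_y12 : Ap SL wL y12 dY12 cY12 eY12 := by
  intro T hT
  have hA : ((0 : ℤ) : ℝ) ≤ (4 : ℤ) * T := by
    push_cast
    linarith [hT.1]
  have hB : ((4 : ℤ) : ℝ) * T ≤ (1 : ℤ) := by
    push_cast
    linarith [hT.2]
  have h := sqrt_encl (y := y12 T) (R := qR (-50 / 49) (1 / 49) (T ^ 2)) (RL := [49, 0, -50, 0, 1]) (dR := 49) (by norm_num)
    (T := T) (by unfold qR evq; simp only [ev_cons, ev_nil]; push_cast; ring) rfl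
    (PL := cY12 ++ [-eY12]) (QL := cY12 ++ [eY12]) (dP := dY12) (A := 0) (B := 1) (d := 4)
    (by decide +kernel) hA hB (by decide +kernel) (by decide +kernel) (by decide +kernel)
  exact ap_of_evq (by decide +kernel) h.1 h.2 rfl

set_option maxRecDepth 20000 in
theorem ap_b13 : Ap SL wL b13 dB13 cB13 eB13 := by
  intro T hT
  have hA : ((0 : ℤ) : ℝ) ≤ (4 : ℤ) * T := by
    push_cast
    linarith [hT.1]
  have hB : ((4 : ℤ) : ℝ) * T ≤ (1 : ℤ) := by
    push_cast
    linarith [hT.2]
  have h := sqrt_encl (y := b13 T) (R := qR (6 / 7) (-1 / 7) T) (RL := [7, 6, -1]) (dR := 7) (by norm_num)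
    (T := T) (by unfold qR evq; simp only [ev_cons, ev_nil]; push_cast; ring) rfl
    (PL := cB13 ++ [-eB13]) (QL := cB13 ++ [eB13]) (dP := dB13) (A := 0) (B := 1) (d := 4)
    (by decide +kernel) hA hB (by decide +kernel) (by decide +kernel) (by decide +kernel)
  exact ap_of_evq (by decide +kernel) h.1 h.2 rfl

set_option maxRecDepth 20000 in
theorem ap_lam1 : Ap SL wL lam1 dLa1 cLa1 eLa1 := by
  intro T hT
  rw [lam1_eq]
  have h := qU_encl (b := -8 / 7) (c := 1 / 7) (RL := [7, -8, 1]) (dR := 7) (by norm_num)
    (fun T => by unfold qR evq; simp only [ev_cons, ev_nil]; push_cast; ring) (e := 1 / 4)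
    (fun x hx => by rw [qR_1]; exact mul_pos (by linarith [hx.2]) (by linarith [hx.2])) (fun x hx => by unfold qD; linarith [hx.2])
    (VL := cLa1 ++ [eLa1]) (WL := cLa1 ++ [-eLa1]) (dV := dLa1) (B := 1) (d := 4)
    (by decide +kernel) (by norm_num) (by norm_num) (by decide +kernel) (by decide +kernel)
    (by decide +kernel) (by decide +kernel) (by decide +kernel) (T := T) ⟨hT.1.le, hT.2⟩
  exact ap_of_evq (by decide +kernel) h.1 h.2 rfl

set_option maxRecDepth 20000 in
theorem ap_lam3 : Ap SL wL lam3 dLa3 cLa3 eLa3 := by
  intro T hT
  rw [lam3_eq]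
  have h := qU_encl (b := 6 / 7) (c := -1 / 7) (RL := [7, 6, -1]) (dR := 7) (by norm_num)
    (fun T => by unfold qR evq; simp only [ev_cons, ev_nil]; push_cast; ring) (e := 1 / 4)
    (fun x hx => by rw [qR_3]; exact mul_pos (by linarith [hx.1]) (by linarith [hx.2])) (fun x hx => by unfold qD; linarith [hx.1])
    (VL := cLa3 ++ [eLa3]) (WL := cLa3 ++ [-eLa3]) (dV := dLa3) (B := 1) (d := 4)
    (by decide +kernel) (by norm_num) (by norm_num) (by decide +kernel) (by decide +kernel)
    (by decide +kernel) (by decide +kernel) (by decide +kernel) (T := T) ⟨hT.1.le, hT.2⟩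
  exact ap_of_evq (by decide +kernel) h.1 h.2 rfl

/-- Taylor coefficients at `0` (times `dLa0`) -/
def cLa0 : List ℤ := sqL cLa0x

/-- common denominator -/
def dLa0 : ℤ := dLa0x

/-- remainder constant -/
def eLa0 : ℤ := eLa0x

set_option maxRecDepth 20000 in
theorem ap_lam0 : Ap SL wL lam0 dLa0 cLa0 eLa0 := by
  intro T hT
  rw [lam0_eq]
  have hT2 : T ^ 2 ∈ Icc (0 : ℝ) (1 / 16) := by
    refine ⟨sq_nonneg T, ?_⟩
    have h1 := hT.1
    have h2 := hT.2
    nlinarith
  have h := qU_encl (b := -50 / 49) (c := 1 / 49) (RL := [49, -50, 1]) (dR := 49) (by norm_num)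
    (fun T => by unfold qR evq; simp only [ev_cons, ev_nil]; push_cast; ring) (e := 1 / 16)
    (fun x hx => by unfold qR; nlinarith [hx.1, hx.2]) (fun x hx => by unfold qD; linarith [hx.2])
    (VL := cLa0x ++ [eLa0x]) (WL := cLa0x ++ [-eLa0x]) (dV := dLa0x) (B := 1) (d := 16)
    (by decide +kernel) (by norm_num) (by norm_num) (by decide +kernel) (by decide +kernel)
    (by decide +kernel) (by decide +kernel) (by decide +kernel) (T := T ^ 2) hT2
  have h3 := ap_of_evq (l := cLa0x) (E := eLa0x) (D := dLa0x) (w := (T ^ 2) ^ 12)
    (by decide +kernel) h.1 h.2 rfl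
  unfold cLa0 dLa0 eLa0 SP.wL
  rw [ev_sqL]
  rw [← pow_mul] at h3
  exact h3

end Vale.Agent.P224.S7
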