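import Vale.Agent.P224.SP.Right5
import Vale.Agent.P224.S7.Fun7

/-!
Models of the scalar functions on `(1/4, 1)`, `m = 7`.
-/

namespace Vale.Agent.P224.S7

open Set Real Vale.Agent.P224.SP

/-- model of `f1` near `1` -/
@[irreducible] def rq1 : List ℤ :=
  [54606219833915654051374242757637747551, -617484749260176424568348429766348239518,
  11553318209204292017476134474261698166960, -183039097070365455388674129662043955072109,
  2364633620614883990452741815974278950938891, -25212689883833382760878602249052254025111411,
  225635070526678443257134540070957558785636132, -1720386778791146907019293388866006681769312747,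
  11315356041896677282241356451881520071196206332,
  -64854996558903183481725254003469358240640937165,
  326635974955404770483433588093206258116370609907,
  -1455464685200172210468114407133746620156361735148,
  5770471586486368903808355063509250343947158031021,
  -20451511744992249184511538651948702027881950397559,
  65046768521688463311982956531833487936091340696493,
  -186250537035317956458603562112830905208942518467511,
  481361051592296988139995819461193721486880986967655,
  -1125257940701819440599630030936165621603354278894274,
  2383122852338358207892358536804381539489552120741939,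
  -4578000900377732828169921929821078248176704168023768,
  7983448816600085837128207334064391118975595187405812,
  -12643756830407665417517842632233687118256141100753064,
  18186834669574602161441348885085971587082505237594348,
  -23751775432430867790971983197029529745287986800133775,
  28144208600128333101986105049863010249377706882948384,
  -30224320321247511703097269142428566562270517843160405,
  29371750343981693124176484279672490118706714484398585,
  -25776932267948694245420765855520812200862520447503955,
  20377332210469316634849164871506477821442042220803601,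
  -14464143690000349166627663493072809555289079082277168,
  9182509681862197998777106808064984006332345093521653,
  -5188726020141701494901421878731677337771880510461122,
  2594306512449409638466082878791652835732422390045653,
  -1139384861476760363459885288364023899120201601408301,
  435563654725244433265458343116013547810650362674754,
  -143270450056691087116524383062714944244947446021868,
  39949659042854515554892438302281993200909734722421,
  -9257953938007126791967403533391224630982345706918,
  1734842289860353199429563961586699925929581887152,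
  -252543182945139051057926496753333711220846462941,
  26792614830211466838004907829481224664739699127,
  -1842613144842097416803847530369130980254952361, 61649537474613935062088928634227482133588717]

/-- denominator -/
@[irreducible] def rD1 : ℤ := 8444007000000000000000000000000000000

/-- error -/
@[irreducible] def rE1 : ℤ := 84440070000000000000001

/-- model of `f2` near `1` -/
@[irreducible] def rq2 : List ℤ :=
  [94949554158888841760227961097386204309, -1277662906709717648812415214109849484762,
  23465528049374455418436711848535189643623, -370327441644974414544183462772355620236298,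
  4777804801784070668190894478018209411884827, -50909681146745324135914972451366605295757432,
  455427666936464174546248142717647887153448538, -3471580662831588632255693535128679758587959506,
  22829162240608705490077675723747896417863639142,
  -130829552115403223951724692099027102877389519955,
  658840743370220546519152492127399660329354212237,
  -2935495774682943740432878404663928790225767048959,
  11637541116127067255389465877192105900791935829242,
  -41243028768155537202027302253450045623614529784798,
  131168628652620144395530692641830907584641097293714,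
  -375564008959310372375667844561460624311263139577907,
  970603847780082306369529858359548851925883733073625,
  -2268870787878786238467901148596807021459811703721041,
  4804988566536582866385494998420032304267165599164709,
  -9230206379108146534573352669729707299130690169371152,
  16095958271085831505607264424845008924479773925182340,
  -25491427256147198448390514190412117715497362668591977,
  36666351065152825641685599107317632235455924470833755,
  -47885047704304324836718402895200589827436287500249579,
  56739666811318618385301648015193745570667205444908324,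
  -60932461198598808241325292369700236995684922255333366,
  59212980146104005832131023386113908088872538182024634,
  -51965326036127171578680068871415503167412901865312301,
  41079529411502437507556895419498020971993961634107890,
  -29158615696867637105683280335937771198002979025747306,
  18511086366736508536097185127772707083412626756603161,
  -10459907787588146973087947527777339099078779799472757,
  5229802004547215387746388015570262024017722473178518,
  -2296843835048192396904926011923715576001415142613073,
  878031132396620009833500666199375869146842409759976,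
  -288810078327201232801261340949258964483040204178822,
  80531612780789036510422260097527461430665304529581,
  -18662339445623580980766267702901950567999646281615,
  3497107275127985220182315050555809961553579541882,
  -509075990411319316797770182520362993365338202303,
  54008260717500663019426887428859402223903503330,
  -3714304354902063110454161436394079159783458323, 124271481210406106158691220304137528473335875]

/-- denominator -/
@[irreducible] def rD2 : ℤ := 8444007000000000000000000000000000000

/-- error -/
@[irreducible] def rE2 : ℤ := 84440070000000000000001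

/-- model of `f3` near `1` -/
@[irreducible] def rq3 : List ℤ :=
  [1120374722118852582364932247775888, -17912259484037583910578584753973938,
  333263934669482541909849410744838150, -5279436472472474996792172437527274959,
  68194152414547687926524519592301806868, -727046050773528857454568241191281492321,
  6506125420991835454231310085364038732623, -49604732565165229964907474549501742643762,
  326250692517074706437883336303894384423768, -1869890355798200701408794768381721613197755,
  9417344354910722868171481208668524627340836, -41962316218314201866771700422691377320754283,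
  166365633707370182715402090642755782691940390, -589621295473542000259042710868234377941272986,
  1875295031640730440718795603362319821851442123,
  -5369552541274327249075608703687245458393252580,
  13877417067998138872957261618168399314637281894,
  -32440480164594117465469549582086003108091493241,
  68703587129064923588750992614613191069042524892,
  -131979628195620898608814485217450527083628868077,
  230154689894098381873730321950363696052063674770,
  -364505306854601692150862589081807398605697735475,
  524304314543624721830247208895662442026387889349,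
  -684732776266666392413438731288990744084026798531,
  811358744833031013599569913019170737367262307935,
  -871323379632475066427929746382758548244013902594,
  846743137105787067058546913380900035009627658290,
  -743108450449780663487329906832569983823436531874,
  587445360411150187796652683205218815545130091016,
  -416977023865683058481801453708798498626071530949,
  264715940532384240123316611550100136989213984085,
  -149581812239338527738306138405546748323548246835,
  74789173631575161227011062496076123366241267264,
  -32846366332039794613903747656485424571838519178,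
  12556482522497180916895883572854129574606105803,
  -4130213465500315571878410779629179651527228379,
  1151671158978059845799868892447296684147966732, -266888584749185250658460229337908479255317293,
  50012040984148267504790853768796882756635858, -7280309573529026126626874845925492212839168,
  772376298708433729741978116715808187764475, -53118727635135934581371969204932471887678,
  1777227403123575789626430806664201308847]

/-- denominator -/
@[irreducible] def rD3 : ℤ := 243000000000000000000000000000000

/-- error -/
@[irreducible] def rE3 : ℤ := 2430000000000000001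

/-- model of `f4` near `1` -/
@[irreducible] def rq4 : List ℤ :=
  [1113565893911125361448611129573821, 477242524660088167818718080277253,
  -181806655444519127021010142419981, 77916930087578294247289328287819,
  -48232853684305956223049156830045, 33384535288345041126092499644076,
  -24876147642396831984373420070402, 19380797677808213645841709901783,
  -15465583300126308630016214352069, 12358659692443873843379349007731,
  -9622718369707451509528548987438, 7074670945215063397213319634972,
  -4753854937705647101942220322023, 2828836772599691141785403886294,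
  -1446153297416930162402313316506, 615821931691985997576705195963,
  -210940860999697599017727079488, 55563146982557007768761696406, -10526224994925192921430310409,
  1273401401415080647652244855, -73753106789330662765662612]

/-- denominator -/
@[irreducible] def rD4 : ℤ := 1701000000000000000000000000000000

/-- error -/
@[irreducible] def rE4 : ℤ := 1701000000000000001

/-- `f3c = b13 (L13 - L13 1)` -/
noncomputable def f3c (T : ℝ) : ℝ := b13 T * (L13 T - L13 1)

/-- `f4 = sqrt (3/7) b13` -/
noncomputable def f4 (T : ℝ) : ℝ := √(3 / 7) * b13 T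

/-- radicands -/
def r1L : List ℤ := [7, -8, 1]
/-- radicand of `y1 y2` (times 49) -/
def r12L : List ℤ := [49, 0, -50, 0, 1]
/-- radicand of `b13` (times 7) -/
def r3L : List ℤ := [7, 6, -1]

lemma ev_r1L (T : ℝ) : ev r1L T = (1 - T) * (7 - T) := by
  simp only [r1L, ev_cons, ev_nil]; push_cast; ring
lemma ev_r12L (T : ℝ) : ev r12L T = (1 - T ^ 2) * (49 - T ^ 2) := by
  simp only [r12L, ev_cons, ev_nil]; push_cast; ring
lemma ev_r3L (T : ℝ) : ev r3L T = (1 + T) * (7 - T) := by
  simp only [r3L, ev_cons, ev_nil]; push_cast; ring

lemma y1_one : y1 1 = 0 := by unfold y1; rw [qR_1]; norm_num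
lemma y12_one : y12 1 = 0 := by unfold y12; rw [qR_12]; norm_num

lemma continuous_y1 : Continuous y1 := (continuous_qR _ _).sqrt
lemma continuous_b13 : Continuous b13 := (continuous_qR _ _).sqrt
lemma continuous_y12 : Continuous y12 := ((continuous_qR _ _).comp (continuous_pow 2)).sqrt

lemma continuousOn_l1 : ContinuousOn l1 (Ioc 0 1) :=
  continuousOn_qL (by norm_num) (fun _ hT => hT.1) fun _ hT => qD_1_pos hT.2

lemma continuousOn_L13 : ContinuousOn L13 (Ioi 0) :=
  continuousOn_qL (by norm_num) (fun _ hT => hT) fun _ hT => qD_3_pos hT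

lemma continuousOn_L0 : ContinuousOn L0 (Ioc 0 1) := by
  have h : ContinuousOn (qL (-50 / 49) (1 / 49) (24 / 49)) (Ioc 0 1) := by
    refine continuousOn_qL (by norm_num) (fun _ hT => hT.1) fun T hT => ?_
    unfold qD; linarith [hT.2]
  refine h.comp (continuous_pow 2).continuousOn fun T hT => ?_
  exact ⟨pow_pos hT.1 2, pow_le_one₀ hT.1.le hT.2⟩

lemma c1u : chkN 4 1 4 4 (smulL (-1) (cL r1L (upL rq1 rE1 7) (2 * 1 * 7 * rD1))) = true := by
  decide +kernel

lemma c1l : chkN 4 1 4 4 (cL r1L (loL rq1 rE1 7) (2 * 1 * 7 * rD1)) = true := by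
  decide +kernel

lemma c2u : chkN 4 1 4 4 (smulL (-1) (cL r12L (upL rq2 rE2 7) (2 * 2 * 49 * rD2))) = true := by
  decide +kernel

lemma c2l : chkN 4 1 4 4 (cL r12L (loL rq2 rE2 7) (2 * 2 * 49 * rD2)) = true := by
  decide +kernel

lemma c3u : chkN 4 1 4 4 (smulL (-1) (cG r3L (upL rq3 rE3 8) (2 * 1 * rD3))) = true := by
  decide +kernel

lemma c3l : chkN 4 1 4 4 (cG r3L (loL rq3 rE3 8) (2 * 1 * rD3)) = true := by
  decide +kernel

lemma c4a : chkN 1 1 4 4 (addL (smulL 49 (mulL (upL rq4 rE4 8) (upL rq4 rE4 8)))
      (smulL (-3 * (rD4 * rD4)) r3L)) = true := by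
  decide +kernel

lemma c4b : chkN 1 1 4 4 (addL (smulL (-49) (mulL (loL rq4 rE4 8) (loL rq4 rE4 8)))
      (smulL (3 * (rD4 * rD4)) r3L)) = true := by
  decide +kernel

lemma c4c : chkN 1 1 4 4 (upL rq4 rE4 8) = true := by
  decide +kernel

lemma ap_f1 : Ap SR wR f1 (7 * rD1) (mulL r1L rq1) (7 * rE1) := by
  intro T hT
  have hT0 : (0 : ℝ) < T := by linarith [hT.1]
  have hy := y1_pos hT0 hT.2
  have hk : (7 : ℝ) ≠ 0 := by norm_num
  have hyd : ∀ T ∈ Ioo (1 / 4 : ℝ) 1,
      HasDerivAt y1 (ev (derL r1L) T / (2 * ((7 : ℤ) : ℝ) * y1 T)) T := by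
    intro x hx
    have hx0 : (0 : ℝ) < x := by linarith [hx.1]
    refine (hasDerivAt_y1 hx0 hx.2).congr_deriv ?_
    have := (y1_pos hx0 hx.2).ne'
    simp only [r1L, derL, derAux, ev_cons, ev_nil]
    push_cast
    field_simp
    ring
  have hL : ∀ T ∈ Ioo (1 / 4 : ℝ) 1, HasDerivAt l1 (-((1 : ℤ) : ℝ) / (T * y1 T)) T := by
    intro x hx
    have hx0 : (0 : ℝ) < x := by linarith [hx.1]
    simpa using hasDerivAt_l1 hx0 hx.2
  have hy2 : ∀ T ∈ Ioo (1 / 4 : ℝ) 1, (((7 : ℤ) : ℝ)) * y1 T ^ 2 = ev r1L T := by
    intro x hx
    have hx0 : (0 : ℝ) < x := by linarith [hx.1]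
    rw [y1_sq hx0 hx.2, ev_r1L]; push_cast; ring
  have hyc : ContinuousOn y1 (Ioc (1 / 4) 1) := continuous_y1.continuousOn
  have hLc : ContinuousOn l1 (Ioc (1 / 4) 1) :=
    continuousOn_l1.mono (Ioc_subset_Ioc_left (by norm_num))
  have hyp : ∀ T ∈ Ioo (1 / 4 : ℝ) 1, 0 < y1 T := fun x hx =>
    y1_pos (by linarith [hx.1]) hx.2
  have hTc : T ∈ Ioc (1 / 4 : ℝ) 1 := ⟨hT.1, hT.2.le⟩
  have hu : (rD1 : ℝ) * l1 T ≤ y1 T * ev (upL rq1 rE1 7) T := by
    refine le_of_cL (k0 := 7) (n := 1) (a := 1 / 4) (by norm_num) (by norm_num) hyp hy2 hyd hL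
      hyc hLc y1_one l1_one (fun x hx => ?_) hTc
    have h1 := c1u
    have h2 := chk_of_mem h1 (by norm_num) hx
    rw [ev_smulL] at h2; push_cast at h2 ⊢; linarith
  have hl : y1 T * ev (loL rq1 rE1 7) T ≤ (rD1 : ℝ) * l1 T := by
    refine ge_of_cL (k0 := 7) (n := 1) (a := 1 / 4) (by norm_num) (by norm_num) hyp hy2 hyd hL
      hyc hLc y1_one l1_one (fun x hx => ?_) hTc
    have h1 := c1l
    exact chk_of_mem h1 (by norm_num) hx
  rw [ev_upL] at hu
  rw [ev_loL] at hl
  have hq := hy2 T hT
  rw [ev_mulL, ← hq]
  unfold f1 wR
  push_cast at hq ⊢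
  rw [ev_r1L] at hq
  have hE : (0 : ℝ) ≤ rE1 := by
    have : (0 : ℤ) ≤ rE1 := by decide +kernel
    exact_mod_cast this
  have h1T : 0 < 1 - T := by linarith [hT.2]
  have hw : 0 ≤ (rE1 : ℝ) * (1 - T) ^ 7 := mul_nonneg hE (pow_nonneg h1T.le 7)
  have hb : 7 * y1 T ^ 2 * ((rE1 : ℝ) * (1 - T) ^ 7) ≤ 7 * rE1 * (1 - T) ^ 8 := by
    have e1 : 7 * (rE1 : ℝ) * (1 - T) ^ 8 = (7 * (1 - T)) * (rE1 * (1 - T) ^ 7) := by ring
    rw [e1, hq]
    refine mul_le_mul_of_nonneg_right ?_ hw
    nlinarith [hT.2]
  rw [abs_le]
  constructor
  · nlinarith [mul_le_mul_of_nonneg_left hl (mul_nonneg (by norm_num : (0 : ℝ) ≤ 7) hy.le)]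
  · nlinarith [mul_le_mul_of_nonneg_left hu (mul_nonneg (by norm_num : (0 : ℝ) ≤ 7) hy.le)]

lemma ap_f2 : Ap SR wR f2 (49 * rD2) (mulL r12L rq2) (98 * rE2) := by
  intro T hT
  have hT0 : (0 : ℝ) < T := by linarith [hT.1]
  have hy := y12_pos hT0 hT.2
  have hyd : ∀ T ∈ Ioo (1 / 4 : ℝ) 1,
      HasDerivAt y12 (ev (derL r12L) T / (2 * ((49 : ℤ) : ℝ) * y12 T)) T := by
    intro x hx
    have hx0 : (0 : ℝ) < x := by linarith [hx.1]
    refine (hasDerivAt_y12 hx0 hx.2).congr_deriv ?_
    have := (y12_pos hx0 hx.2).ne'
    simp only [r12L, derL, derAux, ev_cons, ev_nil]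
    push_cast
    field_simp
    ring
  have hL : ∀ T ∈ Ioo (1 / 4 : ℝ) 1, HasDerivAt L0 (-((2 : ℤ) : ℝ) / (T * y12 T)) T := by
    intro x hx
    have hx0 : (0 : ℝ) < x := by linarith [hx.1]
    have := hasDerivAt_L0 hx0 hx.2
    push_cast
    exact this
  have hy2 : ∀ T ∈ Ioo (1 / 4 : ℝ) 1, (((49 : ℤ) : ℝ)) * y12 T ^ 2 = ev r12L T := by
    intro x hx
    have hx0 : (0 : ℝ) < x := by linarith [hx.1]
    rw [y12_sq hx0 hx.2, ev_r12L]; push_cast; ring
  have hyc : ContinuousOn y12 (Ioc (1 / 4) 1) := continuous_y12.continuousOn
  have hLc : ContinuousOn L0 (Ioc (1 / 4) 1) :=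
    continuousOn_L0.mono (Ioc_subset_Ioc_left (by norm_num))
  have hyp : ∀ T ∈ Ioo (1 / 4 : ℝ) 1, 0 < y12 T := fun x hx =>
    y12_pos (by linarith [hx.1]) hx.2
  have hTc : T ∈ Ioc (1 / 4 : ℝ) 1 := ⟨hT.1, hT.2.le⟩
  have hu : (rD2 : ℝ) * L0 T ≤ y12 T * ev (upL rq2 rE2 7) T := by
    refine le_of_cL (k0 := 49) (n := 2) (a := 1 / 4) (by norm_num) (by norm_num) hyp hy2 hyd hL
      hyc hLc y12_one L0_one (fun x hx => ?_) hTc
    have h1 := c2u
    have h2 := chk_of_mem h1 (by norm_num) hx
    rw [ev_smulL] at h2; push_cast at h2 ⊢; linarith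
  have hl : y12 T * ev (loL rq2 rE2 7) T ≤ (rD2 : ℝ) * L0 T := by
    refine ge_of_cL (k0 := 49) (n := 2) (a := 1 / 4) (by norm_num) (by norm_num) hyp hy2 hyd hL
      hyc hLc y12_one L0_one (fun x hx => ?_) hTc
    have h1 := c2l
    exact chk_of_mem h1 (by norm_num) hx
  rw [ev_upL] at hu
  rw [ev_loL] at hl
  have hq := hy2 T hT
  rw [ev_mulL, ← hq]
  unfold f2 wR
  push_cast at hq ⊢
  rw [ev_r12L] at hq
  have hE : (0 : ℝ) ≤ rE2 := by
    have : (0 : ℤ) ≤ rE2 := by decide +kernel
    exact_mod_cast this
  have h1T : 0 < 1 - T := by linarith [hT.2]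
  have hw : 0 ≤ (rE2 : ℝ) * (1 - T) ^ 7 := mul_nonneg hE (pow_nonneg h1T.le 7)
  have hb : 49 * y12 T ^ 2 * ((rE2 : ℝ) * (1 - T) ^ 7) ≤ 98 * rE2 * (1 - T) ^ 8 := by
    have e1 : 98 * (rE2 : ℝ) * (1 - T) ^ 8 = (98 * (1 - T)) * (rE2 * (1 - T) ^ 7) := by ring
    rw [e1, hq]
    refine mul_le_mul_of_nonneg_right ?_ hw
    have e2 : (1 - T ^ 2) * (49 - T ^ 2) = (1 - T) * ((1 + T) * (49 - T ^ 2)) := by ring
    rw [e2, mul_comm (98 : ℝ)]
    refine mul_le_mul_of_nonneg_left ?_ h1T.le
    nlinarith [hT.2, hT0]
  rw [abs_le]
  constructor
  · nlinarith [mul_le_mul_of_nonneg_left hl (mul_nonneg (by norm_num : (0 : ℝ) ≤ 49) hy.le)]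
  · nlinarith [mul_le_mul_of_nonneg_left hu (mul_nonneg (by norm_num : (0 : ℝ) ≤ 49) hy.le)]

lemma ap_f3 : Ap SR wR f3c rD3 rq3 rE3 := by
  intro T hT
  have hT0 : (0 : ℝ) < T := by linarith [hT.1]
  have hyd : ∀ T ∈ Ioo (1 / 4 : ℝ) 1,
      HasDerivAt b13 (ev (derL r3L) T / (2 * ((7 : ℤ) : ℝ) * b13 T)) T := by
    intro x hx
    have hx0 : (0 : ℝ) < x := by linarith [hx.1]
    refine (hasDerivAt_b13 hx0 hx.2.le).congr_deriv ?_
    have := (b13_pos hx0 hx.2.le).ne'
    simp only [r3L, derL, derAux, ev_cons, ev_nil]
    push_cast
    field_simp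
    ring
  have hL : ∀ T ∈ Ioo (1 / 4 : ℝ) 1,
      HasDerivAt (fun T => L13 T - L13 1) (-((1 : ℤ) : ℝ) / (T * b13 T)) T := by
    intro x hx
    have hx0 : (0 : ℝ) < x := by linarith [hx.1]
    have := (hasDerivAt_L13 hx0 hx.2.le).sub_const (L13 1)
    push_cast
    exact this
  have hy2 : ∀ T ∈ Ioo (1 / 4 : ℝ) 1, (((7 : ℤ) : ℝ)) * b13 T ^ 2 = ev r3L T := by
    intro x hx
    have hx0 : (0 : ℝ) < x := by linarith [hx.1]
    rw [b13_sq hx0 hx.2.le, ev_r3L]; push_cast; ring
  have hyc : ContinuousOn b13 (Ioc (1 / 4) 1) := continuous_b13.continuousOn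
  have hLc : ContinuousOn (fun T => L13 T - L13 1) (Ioc (1 / 4) 1) :=
    (continuousOn_L13.mono fun x hx => (by linarith [hx.1] : (0 : ℝ) < x)).sub
      continuousOn_const
  have hyp : ∀ T ∈ Ioc (1 / 4 : ℝ) 1, 0 < b13 T := fun x hx =>
    b13_pos (by linarith [hx.1]) hx.2
  have hTc : T ∈ Ioc (1 / 4 : ℝ) 1 := ⟨hT.1, hT.2.le⟩
  have hz : ∀ E : ℤ, ev rq3 1 + E * (1 - 1) ^ 8 = 0 := by
    intro E
    have h1 : rq3.foldr (fun a s => a + s) 0 = 0 := by decide +kernel
    have h2 : ∀ l : List ℤ, ev l 1 = ((l.foldr (fun a s => a + s) 0 : ℤ) : ℝ) := by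
      intro l
      induction l with
      | nil => simp
      | cons a l ih => simp only [ev_cons, List.foldr_cons, ih]; push_cast; ring
    rw [h2, h1]; norm_num
  have hu : (rD3 : ℝ) * (b13 T * (L13 T - L13 1)) ≤ ev (upL rq3 rE3 8) T := by
    refine le_of_cG (L := fun T => L13 T - L13 1) (k0 := 7) (n := 1) (a := 1 / 4) (by norm_num)
      (by norm_num) hyp hy2 hyd hL hyc hLc (by simp) ?_ (fun x hx => ?_) hTc
    · rw [ev_upL, hz]
    have h1 := c3u
    have h2 := chk_of_mem h1 (by norm_num) hx
    rw [ev_smulL] at h2; push_cast at h2 ⊢; linarith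
  have hl : ev (loL rq3 rE3 8) T ≤ (rD3 : ℝ) * (b13 T * (L13 T - L13 1)) := by
    refine ge_of_cG (L := fun T => L13 T - L13 1) (k0 := 7) (n := 1) (a := 1 / 4) (by norm_num)
      (by norm_num) hyp hy2 hyd hL hyc hLc (by simp) ?_ (fun x hx => ?_) hTc
    · have := hz (-rE3)
      rw [ev_loL]
      push_cast at this
      linarith
    have h1 := c3l
    exact chk_of_mem h1 (by norm_num) hx
  rw [ev_upL] at hu
  rw [ev_loL] at hl
  unfold f3c wR
  rw [abs_le]
  constructor <;> linarith

lemma ap_f4 : Ap SR wR f4 rD4 rq4 rE4 := by
  intro T hT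
  have hT0 : (0 : ℝ) < T := by linarith [hT.1]
  have hD : (0 : ℝ) < rD4 := by
    have : (0 : ℤ) < rD4 := by decide +kernel
    exact_mod_cast this
  have hf : f4 T ^ 2 = 3 / 49 * ev r3L T := by
    unfold f4
    rw [mul_pow, Real.sq_sqrt (by norm_num), b13_sq hT0 hT.2.le, ev_r3L]; ring
  have hf0 : 0 ≤ f4 T := mul_nonneg (Real.sqrt_nonneg _) (Real.sqrt_nonneg _)
  have h1 := c4a
  have h2 := c4b
  have h3 := c4c
  have h1' := chk_of_mem h1 (by norm_num) hT
  have h2' := chk_of_mem h2 (by norm_num) hT
  have h3' := chk_of_mem h3 (by norm_num) hT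
  rw [ev_addL, ev_smulL, ev_smulL, ev_mulL] at h1' h2'
  push_cast at h1' h2'
  have hu : (rD4 : ℝ) * f4 T ≤ ev (upL rq4 rE4 8) T := by
    refine (pow_le_pow_iff_left₀ (mul_nonneg hD.le hf0) h3' two_ne_zero).1 ?_
    rw [mul_pow, hf, sq (ev (upL rq4 rE4 8) T)]
    linarith
  have hl : ev (loL rq4 rE4 8) T ≤ (rD4 : ℝ) * f4 T := by
    refine le_of_sq (mul_nonneg hD.le hf0) ?_
    rw [mul_pow, hf, sq (ev (loL rq4 rE4 8) T)]
    linarith
  rw [ev_upL] at hu
  rw [ev_loL] at hl
  unfold wR
  rw [abs_le]
  constructor <;> linarith

end Vale.Agent.P224.S7
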