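import Vale.Agent.P224.S7.Z7.Bd
import Vale.Agent.P224.S7.RegD

/-!
The base value columns of the certificate in dimension 7: tests, limits, flux, values at `0`.
-/

namespace Vale.Agent.P224.S7.Z7

open Vale.Agent.P224.SP Vale.Agent.P224.UE Vale.Agent.P224.POS Vale.Agent.P224.PO
  Vale.Agent.P224.SO Set Filter Real
open scoped RealInnerProductSpace Topology

noncomputable section

lemma ev_dl (T : ℝ) : ev dl T = 10588410 * ((1 - T) ^ 2 * (1 + T) ^ 3 * (7 - T) ^ 2 * (7 + T) ^ 2) := by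
  simp only [dl, ev_cons, ev_nil]
  push_cast
  ring

lemma dl_pos {T : ℝ} (h0 : 0 ≤ T) (h1 : T < 1) : 0 < ev dl T := by
  rw [ev_dl]
  have h2 : 0 < 1 - T := by linarith
  have h3 : 0 < 7 - T := by linarith
  positivity

lemma dl_zero : ev dl 0 = 25422772410 := by
  rw [ev_dl]
  norm_num

/-- `Del dl' / dl` -/
def kap : List ℤ := [0, 49, -249, -1, 9]

lemma kap_dl : eqL (mulL DelL (derL dl)) (mulL kap dl) = true := by decide +kernel

/-- the tests of the base columns -/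
theorem ok_lb : (lb.all (VBz.ok dl kap)) = true := by decide +kernel

lemma lim_of {N : Q4} {B : List ℤ} {E h : ℕ} (hh : h ≠ 0)
    (hb : ∀ T : ℝ, 0 < T → T < 1 → |(DD : ℝ) * (G4 N T / ev dl T) - ev B T| ≤ E * (1 - T) ^ h) :
    Lim1 N dl (((B.sum : ℤ) : ℝ) / DD) := by
  have h1 := Lim1.of_bdh (N := N) (Ql := dl) (B := B) (D := (DD : ℝ)) (E := (E : ℝ))
    (by norm_num [DD]) hh (Nat.cast_nonneg E) hb
  rw [ev_one_list] at h1
  exact h1

set_option maxRecDepth 20000 in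
/-- the limits at `T = 1` -/
theorem lim_lb : ∀ x ∈ lb, Lim1 x.N0 dl (x.L1 DD) :=
  List.forall_mem_cons.2 ⟨lim_of (h := vb0.h0) one_ne_zero fun _ h0 h1 => br (r := vb0.N0) (B := vb0.B0) (E := vb0.E0) rfl (K00.bd h0 h1),
  List.forall_mem_cons.2 ⟨lim_of (h := vb1.h0) one_ne_zero fun _ h0 h1 => br (r := vb1.N0) (B := vb1.B0) (E := vb1.E0) rfl (K01.bd h0 h1),
  List.forall_mem_cons.2 ⟨lim_of (h := vb2.h0) one_ne_zero fun _ h0 h1 => br (r := vb2.N0) (B := vb2.B0) (E := vb2.E0) rfl (K02.bd h0 h1),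
  List.forall_mem_cons.2 ⟨lim_of (h := vb3.h0) one_ne_zero fun _ h0 h1 => br (r := vb3.N0) (B := vb3.B0) (E := vb3.E0) rfl (K03.bd h0 h1),
  List.forall_mem_cons.2 ⟨lim_of (h := vb4.h0) one_ne_zero fun _ h0 h1 => br (r := vb4.N0) (B := vb4.B0) (E := vb4.E0) rfl (K04.bd h0 h1),
  List.forall_mem_cons.2 ⟨lim_of (h := vb5.h0) one_ne_zero fun _ h0 h1 => br (r := vb5.N0) (B := vb5.B0) (E := vb5.E0) rfl (K05.bd h0 h1),
  List.forall_mem_cons.2 ⟨lim_of (h := vb6.h0) one_ne_zero fun _ h0 h1 => br (r := vb6.N0) (B := vb6.B0) (E := vb6.E0) rfl (K06.bd h0 h1),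
  List.forall_mem_cons.2 ⟨lim_of (h := vb7.h0) one_ne_zero fun _ h0 h1 => br (r := vb7.N0) (B := vb7.B0) (E := vb7.E0) rfl (K07.bd h0 h1),
  List.forall_mem_cons.2 ⟨lim_of (h := vb8.h0) one_ne_zero fun _ h0 h1 => br (r := vb8.N0) (B := vb8.B0) (E := vb8.E0) rfl (K08.bd h0 h1),
  List.forall_mem_cons.2 ⟨lim_of (h := vb9.h0) one_ne_zero fun _ h0 h1 => br (r := vb9.N0) (B := vb9.B0) (E := vb9.E0) rfl (K09.bd h0 h1),
  fun x hx => absurd hx List.not_mem_nil⟩⟩⟩⟩⟩⟩⟩⟩⟩⟩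

lemma q_lb' : (lb.all fun x => Nat.ble x.K.q 7) = true := by decide +kernel

lemma q_lb : ∀ x ∈ lb, x.K.q ≤ 7 := fun x hx =>
  Nat.le_of_ble_eq_true (List.all_eq_true.1 q_lb' x hx)

lemma flux_lb : 343 * flB lb = 384 * (160 * (DD : ℤ)) := by decide +kernel

/-- the exponents and the constant coefficients of the base columns -/
def pv0 : List (VK × ℤ × ℤ × ℤ) := [
  (⟨4, 0, 0, 0, 0⟩, 600807560220, -690461745372, 0),
  (⟨5, 2, 0, 0, 0⟩, 37355910480, -44827092576, 0),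
  (⟨4, 0, 0, 0, 1⟩, 86333659776, -159385218048, -159385218048),
  (⟨3, 0, 1, 0, 1⟩, 20753283600, -24903940320, 0),
  (⟨4, 0, 1, 0, 1⟩, 15564962700, -18677955240, 0),
  (⟨3, 0, 2, 0, 0⟩, -20734605644760, 24881526773712, 0),
  (⟨4, 0, 2, 0, 0⟩, -27649599740280, 33179519688336, 0),
  (⟨5, 0, 2, 0, 0⟩, -18821152896840, 22585383476208, 0),
  (⟨4, 0, 2, 0, 1⟩, 0, 0, 0),
  (⟨5, 0, 2, 0, 1⟩, 0, 0, 0)]

set_option maxRecDepth 20000 in
/-- the values at `T = 0` -/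
theorem zero_lb : (lb.map fun x => (x.K, x.ge dl DD 0)) = pv0.map fun y =>
    (y.1, ((y.2.1 : ℝ) + (y.2.2.1 : ℝ) / 2 * ll - (y.2.2.2 : ℝ) * KK) / 25422772410) := by
  rw [← dl_zero]
  exact zero_B ok_lb rfl

/-- **The regularity of all value terms.** -/
theorem reg {c0 kB kF : ℕ} {lf : List VFz} (hf : (lf.all VFz.ok) = true) :
    ∀ t ∈ lGZ (lVE dl c0 DD kB kF lb lf), t.Reg :=
  reg_E kap_dl (fun _ hT => (dl_pos hT.1 hT.2).ne') ok_lb hf lim_lb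

/-- the exponents of all value terms -/
theorem ok {c0 kB kF : ℕ} {lf : List VFz} : ∀ t ∈ lGZ (lVE dl c0 DD kB kF lb lf), t.ok 3 :=
  ok_E ok_lb

lemma sqrt_flux : √6 * √2 * ((384 : ℤ) / (343 : ℤ)) = 768 / 343 * √3 := by
  rw [← Real.sqrt_mul (by norm_num), show (6 : ℝ) * 2 = 2 ^ 2 * 3 by norm_num,
    Real.sqrt_mul (by positivity), Real.sqrt_sq (by norm_num)]
  push_cast
  ring

/-- the flux -/
theorem flux {c0 kB kF : ℕ} {lf : List VFz} (hq : (lf.all fun x => Nat.ble x.K.q 7) = true)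
    (h2 : flF lf = 0) :
    OT.fluxC 7 3 (lGZ (lVE dl c0 DD kB kF lb lf)) = 768 / 343 * √3 :=
  (flux_E ok_lb q_lb (fun x hx => Nat.le_of_ble_eq_true (List.all_eq_true.1 hq x hx))
    (by norm_num) flux_lb (by norm_num [DD]) h2).trans sqrt_flux

end

end Vale.Agent.P224.S7.Z7
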